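import Vale.Agent.Lib.P154.K1

/-!
The polynomial inequality behind the subadditivity of the second moment, on the full simplex.
-/

namespace Vale.Agent.Lib.P154.GW

/-- the right side of the first kernel inequality -/
noncomputable def T1g (A B C E : ℝ) : ℝ :=
  (13 / 2 * C - 12 * E) * (B - 1 / 5 * A ^ 2) + (13 / 2 * A - 12 * B) * (E - 1 / 5 * C ^ 2)
    + 1 / 100 * A * C

/-- the polynomial of the first kernel inequality -/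
noncomputable def P1g (A B C E : ℝ) : ℝ :=
  (A + C - 2 / 3 - T1g A B C E) * E0f A B C E - Yf A B C E

set_option maxRecDepth 100000 in
set_option maxHeartbeats 4000000 in
theorem cert1g {u x v y : ℝ} (h1 : Atoms u x) (h2 : Atoms v y) :
    0 ≤ P1g (2 / 3 * u) (2 / 9 * u * x) (2 / 3 * v) (2 / 9 * v * y) := by
  obtain ⟨hu, het, hka, hmu, hom, hbh, hch⟩ := h1
  obtain ⟨hu2, het2, hka2, hmu2, hom2, hbh2, hch2⟩ := h2
  have key : P1g (2 / 3 * u) (2 / 9 * u * x) (2 / 3 * v) (2 / 9 * v * y)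
      = 4 / 9 * u * v * ((477119524729/29778170227200)*(((u-2*(1)*x+(1)^2)*(1-x))*((1-y)*(1-3*v+2*v*y))) + (828268541159/138964794393600)*(((1+2*x)*(1-3*u+2*u*x))*(v*(1-v)*(1+2*y)*(1+2*y))) + (574395709/20104860300)*(((x-(-1/4))^2*u*(1-u))*((v-2*(1)*y+(1)^2)*(1+2*y))) + (1/81)*((u*(1+2*x)*(1-3*u+2*u*x))*(v*(1+2*y)*(1+2*y))) + (6080076677/1715614745600)*(((1-u)*(1-u)*(1+2*x)*(1+2*x))*((1+2*y)*(1-3*v+2*v*y))) + (33478717246169/741145570099200)*(((1-u)*(1+2*x)*(1-3*u+2*u*x))*((1-3*v+2*v*y)*(1-3*v+2*v*y))) + (451298652583/27792958878720)*(((1-x)*(1-3*u+2*u*x))*((1-3*v+2*v*y)*(1-3*v+2*v*y))) + (10560988211/294105384960)*(((1-3*u+2*u*x)*(1-3*u+2*u*x))*(v*(1-y)*(1-3*v+2*v*y))) + (461337913/160838882400)*((u*u*(1+x-2*u))*((1-v)*(1+2*y)*(1+2*y))) + (113899993/13403240200)*(((u-2*(1)*x+(1)^2)*(1-x))*((1-v)*(1-v)*(v-y^2))) + (8677092358919/138964794393600)*(((1-u)*(1+2*x)*(1-3*u+2*u*x))*((v-2*(1)*y+(1)^2)*(1+2*y)))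 + (348345240241/21175587717120)*(((1-3*u+2*u*x)*(1-3*u+2*u*x))*((1+2*y)*(1-3*v+2*v*y))) + (834608543977/4963028371200)*(((1-x)*(1-3*u+2*u*x))*(v*(1-v)*(1+2*y)*(1+2*y))) + (3328821982201/92643196262400)*((u*(1+2*x)*(1-3*u+2*u*x))*((1-v)*(1+2*y)*(1+2*y))) + (5560945807051/138964794393600)*(((u-2*(1)*x+(1)^2)*(1+2*x))*(v*(1-y)*(1-3*v+2*v*y))) + (292524890521/20844719159040)*((u*(1-x)*(1-3*u+2*u*x))*((v-2*(1)*y+(1)^2)*(1-y))) + (1428775127/26806480400)*(((x-(0))^2*u*(1-u))*((1-v)*(1-v)*(1+2*y)*(1+2*y))) + (122667819121/2573422118400)*(((1-3*u+2*u*x)*(1-3*u+2*u*x))*((v-2*(1)*y+(1)^2)*v*(1-y))) + (42359851479013/416894383180800)*(((1-x)*(1-3*u+2*u*x))*((v-2*(1)*y+(1)^2)*(1-y))) + (4755671221/137861899200)*(((1-u)*(1+2*x)*(1+2*x))*(v*(1+2*y)*(1-3*v+2*v*y))) + (6886026669913/158816907878400)*(((1-u)*(1-u)*(1+2*x)*(1+2*x))*((1-v)*(1+2*y)*(1-3*v+2*v*y)))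 + (4735011536291/13027949474400)*(((u-2*(1)*x+(1)^2)*u*(1-x))*((1-y)*(1-3*v+2*v*y))) + (30198456544265/133406202617856)*(((1-x)*(1-3*u+2*u*x))*((v-2*(1)*y+(1)^2)*(1+2*y))) + (3180433850407/41689438318080)*(((1-x)*(1-3*u+2*u*x))*((1-v)*(1+2*y)*(1-3*v+2*v*y))) + (15373279535569/138964794393600)*(((u-2*(1)*x+(1)^2)*(1+2*x))*(v*(1+2*y)*(1-3*v+2*v*y))) + (1204935999677/138964794393600)*(((u-2*(1)*x+(1)^2)*(1-x))*((1-3*v+2*v*y)*(1-3*v+2*v*y))) + (66351777139303/4446873420595200)*(((1+2*x)*(1-3*u+2*u*x))*((1-v)*(1-v)*(1+2*y)*(1+2*y))) + (118689981163/69482397196800)*(((1-3*u+2*u*x)*(1-3*u+2*u*x))*((1-v)*(1+2*y)*(1+2*y))) + (132606727/40209720600)*((u*(1-u)*(1+2*x)*(1+2*x))*((1-v)*(1+2*y)*(1+2*y))) + (117390033/6701620100)*(((u-2*(1)*x+(1)^2)*(1-x))*((y-(1/4))^2*v*(1-v))) + (31/2025)*(((1-x)*(1-3*u+2*u*x))*(v*(1+2*y)*(1+2*y))) + (2187051631/241258323600)*(((1-u)*(1-u)*(u-x^2))*((1-v)*(1+2*y)*(1+2*y)))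 + (371459508431/3474119859840)*(((u-2*(1)*x+(1)^2)*(1-x))*(v*(1+2*y)*(1-3*v+2*v*y))) + (47/8100)*(((1+2*x)*(1-3*u+2*u*x))*((1+2*y)*(1+2*y))) + (200759473/40209720600)*((u*u*(1+x-2*u))*((v-2*(1)*y+(1)^2)*(1+2*y))) + (14214371629/214451843200)*(((1-u)*(1-u)*(1+2*x)*(1+2*x))*((y-(-1/4))^2*v*(1-v))) + (39572824357/2779295887872)*((u*(1-u)*(1+2*x)*(1+2*x))*((1-v)*(1+2*y)*(1-3*v+2*v*y))) + (6032967551/16083888240)*(((1-u)*(1-u)*(1-x)*(1+2*x))*((y-(1/4))^2*v*(1-v))) + (30870846033/13403240200)*(((x-(1/2))^2*u*(1-u))*((y-(1/2))^2*v*(1-v))) + (113899993/26806480400)*(((u-2*(1)*x+(1)^2)*(1-x))*(v*v*(1+y-2*v))) + (217604811893737/1667577532723200)*(((u-2*(1)*x+(1)^2)*u*(1+2*x))*((1-y)*(1-3*v+2*v*y))) + (36041023122023/416894383180800)*(((1-x)*(1-3*u+2*u*x))*((v-2*(1)*y+(1)^2)*v*(1+2*y))) + (13904105066609/494097046732800)*(((1-u)*(1+2*x)*(1-3*u+2*u*x))*((1-v)*(1-v)*(1+2*y)*(1+2*y)))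 + (51793189276949/3335155065446400)*(((1+2*x)*(1+2*x))*(v*(1+2*y)*(1-3*v+2*v*y))) + (837821489/20104860300)*(((x-(1/4))^2*u*(1-u))*((v-2*(1)*y+(1)^2)*(1-y))) + (35375028439597/190580289454080)*(((u-2*(1)*x+(1)^2)*(1+2*x))*((1-y)*(1-3*v+2*v*y))) + (2416177501331/104223595795200)*(((1+2*x)*(1-3*u+2*u*x))*((v-2*(1)*y+(1)^2)*(1-y))) + (251802053854721/2223436710297600)*(((1+2*x)*(1-3*u+2*u*x))*((1+2*y)*(1-3*v+2*v*y))) + (200759473/241258323600)*(((1-u)*(1+x-2*u)*(1+x-2*u))*(v*(1-v)*(1+2*y)*(1+2*y))) + (142553419541/13724917964800)*((u*(1-u)*(1+2*x)*(1+2*x))*((1-3*v+2*v*y)*(1-3*v+2*v*y))) + (8733698947819/3335155065446400)*(((1+2*x)*(1+2*x))*((1+2*y)*(1-3*v+2*v*y))) + (14768413731389/277929588787200)*((u*(1-x)*(1-3*u+2*u*x))*((v-2*(1)*y+(1)^2)*(1+2*y))) + (593533079567597/3335155065446400)*(((1-x)*(1-3*u+2*u*x))*((1-v)*(1-v)*(1+2*y)*(1+2*y))) + (1948188061/10052430150)*(((u-2*(1)*x+(1)^2)*(1-x))*((y-(1/2))^2*v*(1-v)))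 + (10618435382549/1111718355148800)*((u*(1+2*x)*(1+2*x))*((1-3*v+2*v*y)*(1-3*v+2*v*y))) + (101800428731/3970422696960)*(((u-2*(1)*x+(1)^2)*(1-x))*((1-v)*(1+2*y)*(1-3*v+2*v*y))) + (489510320348699/4446873420595200)*((u*(1+2*x)*(1-3*u+2*u*x))*((v-2*(1)*y+(1)^2)*(1+2*y))) + (140701256823571/1667577532723200)*((u*(1+2*x)*(1-3*u+2*u*x))*((v-2*(1)*y+(1)^2)*(1-y))) + (2/81)*((u*(1-x)*(1-3*u+2*u*x))*((1+2*y)*(1+2*y))) + (72716680755799/1667577532723200)*(((1-u)*(1+2*x)*(1-3*u+2*u*x))*((1-y)*(1-3*v+2*v*y))) + (345598988159/5293896929280)*(((1-u)*(1+2*x)*(1-3*u+2*u*x))*(v*(1+2*y)*(1-3*v+2*v*y))) + (1314112099421/22234367102976)*(((1+2*x)*(1+2*x))*(v*(1-y)*(1-3*v+2*v*y))) + (86730133018241/1482291140198400)*((u*(1+2*x)*(1-3*u+2*u*x))*((1+2*y)*(1-3*v+2*v*y))) + (14909912031979/1667577532723200)*(((1+2*x)*(1+2*x))*((1-v)*(1-y)*(1-3*v+2*v*y))) + (96163393426939/6670310130892800)*(((1-u)*(1-u)*(1+2*x)*(1+2*x))*((1-y)*(1-3*v+2*v*y)))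 + (3316210463/20104860300)*(((x-(1/2))^2*u*(1-u))*((v-2*(1)*y+(1)^2)*(1-y))) + (321638679/1340324020)*(((x-(1/4))^2*u*(1-u))*((1-v)*(1-v)*(1-y)*(1+2*y))) + (5282970060293/34741198598400)*(((1-u)*(1+2*x)*(1+2*x))*((1-y)*(1-3*v+2*v*y))) + (216447443059/10293688473600)*((u*(1-x)*(1-3*u+2*u*x))*((1-v)*(1-v)*(1+2*y)*(1+2*y))) + (3947912265709/69482397196800)*(((u-2*(1)*x+(1)^2)*(1+2*x))*((1-v)*(1+2*y)*(1-3*v+2*v*y))) + (388634510921/27449835929600)*(((1-3*u+2*u*x)*(1-3*u+2*u*x))*((1-v)*(1+2*y)*(1-3*v+2*v*y))) + (755074941/214451843200)*((u*(1-u)*(1+2*x)*(1+2*x))*(v*(1-v)*(1+2*y)*(1+2*y))) + (4707852563623/211755877171200)*((u*(1+2*x)*(1-3*u+2*u*x))*((1-3*v+2*v*y)*(1-3*v+2*v*y))) + (978747439/128671105920)*(((u-2*(1)*x+(1)^2)*(1+2*x))*((y-(-1/4))^2*v*(1-v))) + (401518946/15078645225)*(((1-u)*(1-u)*(u-x^2))*((1-v)*(1-v)*(1-y)*(1+2*y))) + (200759473/40209720600)*(((1-u)*(1+x-2*u)*(1+x-2*u))*((1-v)*(1+2*y)*(1-3*v+2*v*y)))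 + (200759473/80419441200)*(((1-u)*(1+x-2*u)*(1+x-2*u))*(v*(1+2*y)*(1-3*v+2*v*y))) + (522493614793/741145570099200)*((u*(1+2*x)*(1-3*u+2*u*x))*(v*(1+2*y)*(1-3*v+2*v*y)))) := by
    unfold P1g T1g E0f Yf
    ring
  rw [key]
  have hs : 0 ≤ (477119524729/29778170227200)*(((u-2*(1)*x+(1)^2)*(1-x))*((1-y)*(1-3*v+2*v*y))) + (828268541159/138964794393600)*(((1+2*x)*(1-3*u+2*u*x))*(v*(1-v)*(1+2*y)*(1+2*y))) + (574395709/20104860300)*(((x-(-1/4))^2*u*(1-u))*((v-2*(1)*y+(1)^2)*(1+2*y))) + (1/81)*((u*(1+2*x)*(1-3*u+2*u*x))*(v*(1+2*y)*(1+2*y))) + (6080076677/1715614745600)*(((1-u)*(1-u)*(1+2*x)*(1+2*x))*((1+2*y)*(1-3*v+2*v*y))) + (33478717246169/741145570099200)*(((1-u)*(1+2*x)*(1-3*u+2*u*x))*((1-3*v+2*v*y)*(1-3*v+2*v*y))) + (451298652583/27792958878720)*(((1-x)*(1-3*u+2*u*x))*((1-3*v+2*v*y)*(1-3*v+2*v*y))) + (10560988211/294105384960)*(((1-3*u+2*u*x)*(1-3*u+2*u*x))*(v*(1-y)*(1-3*v+2*v*y)))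 + (461337913/160838882400)*((u*u*(1+x-2*u))*((1-v)*(1+2*y)*(1+2*y))) + (113899993/13403240200)*(((u-2*(1)*x+(1)^2)*(1-x))*((1-v)*(1-v)*(v-y^2))) + (8677092358919/138964794393600)*(((1-u)*(1+2*x)*(1-3*u+2*u*x))*((v-2*(1)*y+(1)^2)*(1+2*y))) + (348345240241/21175587717120)*(((1-3*u+2*u*x)*(1-3*u+2*u*x))*((1+2*y)*(1-3*v+2*v*y))) + (834608543977/4963028371200)*(((1-x)*(1-3*u+2*u*x))*(v*(1-v)*(1+2*y)*(1+2*y))) + (3328821982201/92643196262400)*((u*(1+2*x)*(1-3*u+2*u*x))*((1-v)*(1+2*y)*(1+2*y))) + (5560945807051/138964794393600)*(((u-2*(1)*x+(1)^2)*(1+2*x))*(v*(1-y)*(1-3*v+2*v*y))) + (292524890521/20844719159040)*((u*(1-x)*(1-3*u+2*u*x))*((v-2*(1)*y+(1)^2)*(1-y))) + (1428775127/26806480400)*(((x-(0))^2*u*(1-u))*((1-v)*(1-v)*(1+2*y)*(1+2*y))) + (122667819121/2573422118400)*(((1-3*u+2*u*x)*(1-3*u+2*u*x))*((v-2*(1)*y+(1)^2)*v*(1-y))) + (42359851479013/416894383180800)*(((1-x)*(1-3*u+2*u*x))*((v-2*(1)*y+(1)^2)*(1-y)))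 + (4755671221/137861899200)*(((1-u)*(1+2*x)*(1+2*x))*(v*(1+2*y)*(1-3*v+2*v*y))) + (6886026669913/158816907878400)*(((1-u)*(1-u)*(1+2*x)*(1+2*x))*((1-v)*(1+2*y)*(1-3*v+2*v*y))) + (4735011536291/13027949474400)*(((u-2*(1)*x+(1)^2)*u*(1-x))*((1-y)*(1-3*v+2*v*y))) + (30198456544265/133406202617856)*(((1-x)*(1-3*u+2*u*x))*((v-2*(1)*y+(1)^2)*(1+2*y))) + (3180433850407/41689438318080)*(((1-x)*(1-3*u+2*u*x))*((1-v)*(1+2*y)*(1-3*v+2*v*y))) + (15373279535569/138964794393600)*(((u-2*(1)*x+(1)^2)*(1+2*x))*(v*(1+2*y)*(1-3*v+2*v*y))) + (1204935999677/138964794393600)*(((u-2*(1)*x+(1)^2)*(1-x))*((1-3*v+2*v*y)*(1-3*v+2*v*y))) + (66351777139303/4446873420595200)*(((1+2*x)*(1-3*u+2*u*x))*((1-v)*(1-v)*(1+2*y)*(1+2*y))) + (118689981163/69482397196800)*(((1-3*u+2*u*x)*(1-3*u+2*u*x))*((1-v)*(1+2*y)*(1+2*y))) + (132606727/40209720600)*((u*(1-u)*(1+2*x)*(1+2*x))*((1-v)*(1+2*y)*(1+2*y)))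 + (117390033/6701620100)*(((u-2*(1)*x+(1)^2)*(1-x))*((y-(1/4))^2*v*(1-v))) + (31/2025)*(((1-x)*(1-3*u+2*u*x))*(v*(1+2*y)*(1+2*y))) + (2187051631/241258323600)*(((1-u)*(1-u)*(u-x^2))*((1-v)*(1+2*y)*(1+2*y))) + (371459508431/3474119859840)*(((u-2*(1)*x+(1)^2)*(1-x))*(v*(1+2*y)*(1-3*v+2*v*y))) + (47/8100)*(((1+2*x)*(1-3*u+2*u*x))*((1+2*y)*(1+2*y))) + (200759473/40209720600)*((u*u*(1+x-2*u))*((v-2*(1)*y+(1)^2)*(1+2*y))) + (14214371629/214451843200)*(((1-u)*(1-u)*(1+2*x)*(1+2*x))*((y-(-1/4))^2*v*(1-v))) + (39572824357/2779295887872)*((u*(1-u)*(1+2*x)*(1+2*x))*((1-v)*(1+2*y)*(1-3*v+2*v*y))) + (6032967551/16083888240)*(((1-u)*(1-u)*(1-x)*(1+2*x))*((y-(1/4))^2*v*(1-v))) + (30870846033/13403240200)*(((x-(1/2))^2*u*(1-u))*((y-(1/2))^2*v*(1-v))) + (113899993/26806480400)*(((u-2*(1)*x+(1)^2)*(1-x))*(v*v*(1+y-2*v))) + (217604811893737/1667577532723200)*(((u-2*(1)*x+(1)^2)*u*(1+2*x))*((1-y)*(1-3*v+2*v*y)))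 + (36041023122023/416894383180800)*(((1-x)*(1-3*u+2*u*x))*((v-2*(1)*y+(1)^2)*v*(1+2*y))) + (13904105066609/494097046732800)*(((1-u)*(1+2*x)*(1-3*u+2*u*x))*((1-v)*(1-v)*(1+2*y)*(1+2*y))) + (51793189276949/3335155065446400)*(((1+2*x)*(1+2*x))*(v*(1+2*y)*(1-3*v+2*v*y))) + (837821489/20104860300)*(((x-(1/4))^2*u*(1-u))*((v-2*(1)*y+(1)^2)*(1-y))) + (35375028439597/190580289454080)*(((u-2*(1)*x+(1)^2)*(1+2*x))*((1-y)*(1-3*v+2*v*y))) + (2416177501331/104223595795200)*(((1+2*x)*(1-3*u+2*u*x))*((v-2*(1)*y+(1)^2)*(1-y))) + (251802053854721/2223436710297600)*(((1+2*x)*(1-3*u+2*u*x))*((1+2*y)*(1-3*v+2*v*y))) + (200759473/241258323600)*(((1-u)*(1+x-2*u)*(1+x-2*u))*(v*(1-v)*(1+2*y)*(1+2*y))) + (142553419541/13724917964800)*((u*(1-u)*(1+2*x)*(1+2*x))*((1-3*v+2*v*y)*(1-3*v+2*v*y))) + (8733698947819/3335155065446400)*(((1+2*x)*(1+2*x))*((1+2*y)*(1-3*v+2*v*y)))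 + (14768413731389/277929588787200)*((u*(1-x)*(1-3*u+2*u*x))*((v-2*(1)*y+(1)^2)*(1+2*y))) + (593533079567597/3335155065446400)*(((1-x)*(1-3*u+2*u*x))*((1-v)*(1-v)*(1+2*y)*(1+2*y))) + (1948188061/10052430150)*(((u-2*(1)*x+(1)^2)*(1-x))*((y-(1/2))^2*v*(1-v))) + (10618435382549/1111718355148800)*((u*(1+2*x)*(1+2*x))*((1-3*v+2*v*y)*(1-3*v+2*v*y))) + (101800428731/3970422696960)*(((u-2*(1)*x+(1)^2)*(1-x))*((1-v)*(1+2*y)*(1-3*v+2*v*y))) + (489510320348699/4446873420595200)*((u*(1+2*x)*(1-3*u+2*u*x))*((v-2*(1)*y+(1)^2)*(1+2*y))) + (140701256823571/1667577532723200)*((u*(1+2*x)*(1-3*u+2*u*x))*((v-2*(1)*y+(1)^2)*(1-y))) + (2/81)*((u*(1-x)*(1-3*u+2*u*x))*((1+2*y)*(1+2*y))) + (72716680755799/1667577532723200)*(((1-u)*(1+2*x)*(1-3*u+2*u*x))*((1-y)*(1-3*v+2*v*y))) + (345598988159/5293896929280)*(((1-u)*(1+2*x)*(1-3*u+2*u*x))*(v*(1+2*y)*(1-3*v+2*v*y))) + (1314112099421/22234367102976)*(((1+2*x)*(1+2*x))*(v*(1-y)*(1-3*v+2*v*y)))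 + (86730133018241/1482291140198400)*((u*(1+2*x)*(1-3*u+2*u*x))*((1+2*y)*(1-3*v+2*v*y))) + (14909912031979/1667577532723200)*(((1+2*x)*(1+2*x))*((1-v)*(1-y)*(1-3*v+2*v*y))) + (96163393426939/6670310130892800)*(((1-u)*(1-u)*(1+2*x)*(1+2*x))*((1-y)*(1-3*v+2*v*y))) + (3316210463/20104860300)*(((x-(1/2))^2*u*(1-u))*((v-2*(1)*y+(1)^2)*(1-y))) + (321638679/1340324020)*(((x-(1/4))^2*u*(1-u))*((1-v)*(1-v)*(1-y)*(1+2*y))) + (5282970060293/34741198598400)*(((1-u)*(1+2*x)*(1+2*x))*((1-y)*(1-3*v+2*v*y))) + (216447443059/10293688473600)*((u*(1-x)*(1-3*u+2*u*x))*((1-v)*(1-v)*(1+2*y)*(1+2*y))) + (3947912265709/69482397196800)*(((u-2*(1)*x+(1)^2)*(1+2*x))*((1-v)*(1+2*y)*(1-3*v+2*v*y))) + (388634510921/27449835929600)*(((1-3*u+2*u*x)*(1-3*u+2*u*x))*((1-v)*(1+2*y)*(1-3*v+2*v*y))) + (755074941/214451843200)*((u*(1-u)*(1+2*x)*(1+2*x))*(v*(1-v)*(1+2*y)*(1+2*y))) + (4707852563623/211755877171200)*((u*(1+2*x)*(1-3*u+2*u*x))*((1-3*v+2*v*y)*(1-3*v+2*v*y)))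 + (978747439/128671105920)*(((u-2*(1)*x+(1)^2)*(1+2*x))*((y-(-1/4))^2*v*(1-v))) + (401518946/15078645225)*(((1-u)*(1-u)*(u-x^2))*((1-v)*(1-v)*(1-y)*(1+2*y))) + (200759473/40209720600)*(((1-u)*(1+x-2*u)*(1+x-2*u))*((1-v)*(1+2*y)*(1-3*v+2*v*y))) + (200759473/80419441200)*(((1-u)*(1+x-2*u)*(1+x-2*u))*(v*(1+2*y)*(1-3*v+2*v*y))) + (522493614793/741145570099200)*((u*(1+2*x)*(1-3*u+2*u*x))*(v*(1+2*y)*(1-3*v+2*v*y))) :=
    (add_nonneg (add_nonneg (add_nonneg (add_nonneg (add_nonneg (add_nonneg (add_nonneg (add_nonneg (add_nonneg (add_nonneg (add_nonneg (add_nonneg (add_nonneg (add_nonneg (add_nonneg (add_nonneg (add_nonneg (add_nonneg (add_nonneg (add_nonneg (add_nonneg (add_nonneg (add_nonneg (add_nonneg (add_nonneg (add_nonneg (add_nonneg (add_nonneg (add_nonneg (add_nonneg (add_nonneg (add_nonneg (add_nonneg (add_nonneg (add_nonneg (add_nonneg (add_nonneg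 (add_nonneg (add_nonneg (add_nonneg (add_nonneg (add_nonneg (add_nonneg (add_nonneg (add_nonneg (add_nonneg (add_nonneg (add_nonneg (add_nonneg (add_nonneg (add_nonneg (add_nonneg (add_nonneg (add_nonneg (add_nonneg (add_nonneg (add_nonneg (add_nonneg (add_nonneg (add_nonneg (add_nonneg (add_nonneg (add_nonneg (add_nonneg (add_nonneg (add_nonneg (add_nonneg (add_nonneg (add_nonneg (add_nonneg (add_nonneg (add_nonneg (add_nonneg (add_nonneg (add_nonneg (add_nonneg (add_nonneg (mul_nonneg (by norm_num) (mul_nonneg (mul_nonneg (tan_nn hom (1)) hka) (mul_nonneg hka2 hbh2))) (mul_nonneg (by norm_num) (mul_nonneg (mul_nonneg hmu hbh) (mul_nonneg (mul_nonneg (mul_nonneg hu2 het2) hmu2) hmu2)))) (mul_nonneg (by norm_num) (mul_nonneg (mul_nonneg (mul_nonneg (sq_nonneg (x-(-1/4))) hu) het) (mul_nonneg (tan_nn hom2 (1)) hmu2)))) (mul_nonneg (by norm_num)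 (mul_nonneg (mul_nonneg (mul_nonneg hu hmu) hbh) (mul_nonneg (mul_nonneg hu2 hmu2) hmu2)))) (mul_nonneg (by norm_num) (mul_nonneg (mul_nonneg (mul_nonneg (mul_nonneg het het) hmu) hmu) (mul_nonneg hmu2 hbh2)))) (mul_nonneg (by norm_num) (mul_nonneg (mul_nonneg (mul_nonneg het hmu) hbh) (mul_nonneg hbh2 hbh2)))) (mul_nonneg (by norm_num) (mul_nonneg (mul_nonneg hka hbh) (mul_nonneg hbh2 hbh2)))) (mul_nonneg (by norm_num) (mul_nonneg (mul_nonneg hbh hbh) (mul_nonneg (mul_nonneg hu2 hka2) hbh2)))) (mul_nonneg (by norm_num) (mul_nonneg (mul_nonneg (mul_nonneg hu hu) hch) (mul_nonneg (mul_nonneg het2 hmu2) hmu2)))) (mul_nonneg (by norm_num) (mul_nonneg (mul_nonneg (tan_nn hom (1)) hka) (mul_nonneg (mul_nonneg het2 het2) hom2)))) (mul_nonneg (by norm_num) (mul_nonneg (mul_nonneg (mul_nonneg het hmu) hbh) (mul_nonneg (tan_nn hom2 (1)) hmu2)))) (mul_nonneg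 (by norm_num) (mul_nonneg (mul_nonneg hbh hbh) (mul_nonneg hmu2 hbh2)))) (mul_nonneg (by norm_num) (mul_nonneg (mul_nonneg hka hbh) (mul_nonneg (mul_nonneg (mul_nonneg hu2 het2) hmu2) hmu2)))) (mul_nonneg (by norm_num) (mul_nonneg (mul_nonneg (mul_nonneg hu hmu) hbh) (mul_nonneg (mul_nonneg het2 hmu2) hmu2)))) (mul_nonneg (by norm_num) (mul_nonneg (mul_nonneg (tan_nn hom (1)) hmu) (mul_nonneg (mul_nonneg hu2 hka2) hbh2)))) (mul_nonneg (by norm_num) (mul_nonneg (mul_nonneg (mul_nonneg hu hka) hbh) (mul_nonneg (tan_nn hom2 (1)) hka2)))) (mul_nonneg (by norm_num) (mul_nonneg (mul_nonneg (mul_nonneg (sq_nonneg (x-(0))) hu) het) (mul_nonneg (mul_nonneg (mul_nonneg het2 het2) hmu2) hmu2)))) (mul_nonneg (by norm_num) (mul_nonneg (mul_nonneg hbh hbh) (mul_nonneg (mul_nonneg (tan_nn hom2 (1)) hu2) hka2)))) (mul_nonneg (by norm_num) (mul_nonneg (mul_nonneg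 hka hbh) (mul_nonneg (tan_nn hom2 (1)) hka2)))) (mul_nonneg (by norm_num) (mul_nonneg (mul_nonneg (mul_nonneg het hmu) hmu) (mul_nonneg (mul_nonneg hu2 hmu2) hbh2)))) (mul_nonneg (by norm_num) (mul_nonneg (mul_nonneg (mul_nonneg (mul_nonneg het het) hmu) hmu) (mul_nonneg (mul_nonneg het2 hmu2) hbh2)))) (mul_nonneg (by norm_num) (mul_nonneg (mul_nonneg (mul_nonneg (tan_nn hom (1)) hu) hka) (mul_nonneg hka2 hbh2)))) (mul_nonneg (by norm_num) (mul_nonneg (mul_nonneg hka hbh) (mul_nonneg (tan_nn hom2 (1)) hmu2)))) (mul_nonneg (by norm_num) (mul_nonneg (mul_nonneg hka hbh) (mul_nonneg (mul_nonneg het2 hmu2) hbh2)))) (mul_nonneg (by norm_num) (mul_nonneg (mul_nonneg (tan_nn hom (1)) hmu) (mul_nonneg (mul_nonneg hu2 hmu2) hbh2)))) (mul_nonneg (by norm_num) (mul_nonneg (mul_nonneg (tan_nn hom (1)) hka) (mul_nonneg hbh2 hbh2)))) (mul_nonneg (by norm_num)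 (mul_nonneg (mul_nonneg hmu hbh) (mul_nonneg (mul_nonneg (mul_nonneg het2 het2) hmu2) hmu2)))) (mul_nonneg (by norm_num) (mul_nonneg (mul_nonneg hbh hbh) (mul_nonneg (mul_nonneg het2 hmu2) hmu2)))) (mul_nonneg (by norm_num) (mul_nonneg (mul_nonneg (mul_nonneg (mul_nonneg hu het) hmu) hmu) (mul_nonneg (mul_nonneg het2 hmu2) hmu2)))) (mul_nonneg (by norm_num) (mul_nonneg (mul_nonneg (tan_nn hom (1)) hka) (mul_nonneg (mul_nonneg (sq_nonneg (y-(1/4))) hu2) het2)))) (mul_nonneg (by norm_num) (mul_nonneg (mul_nonneg hka hbh) (mul_nonneg (mul_nonneg hu2 hmu2) hmu2)))) (mul_nonneg (by norm_num) (mul_nonneg (mul_nonneg (mul_nonneg het het) hom) (mul_nonneg (mul_nonneg het2 hmu2) hmu2)))) (mul_nonneg (by norm_num) (mul_nonneg (mul_nonneg (tan_nn hom (1)) hka) (mul_nonneg (mul_nonneg hu2 hmu2) hbh2)))) (mul_nonneg (by norm_num) (mul_nonneg (mul_nonneg hmu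 hbh) (mul_nonneg hmu2 hmu2)))) (mul_nonneg (by norm_num) (mul_nonneg (mul_nonneg (mul_nonneg hu hu) hch) (mul_nonneg (tan_nn hom2 (1)) hmu2)))) (mul_nonneg (by norm_num) (mul_nonneg (mul_nonneg (mul_nonneg (mul_nonneg het het) hmu) hmu) (mul_nonneg (mul_nonneg (sq_nonneg (y-(-1/4))) hu2) het2)))) (mul_nonneg (by norm_num) (mul_nonneg (mul_nonneg (mul_nonneg (mul_nonneg hu het) hmu) hmu) (mul_nonneg (mul_nonneg het2 hmu2) hbh2)))) (mul_nonneg (by norm_num) (mul_nonneg (mul_nonneg (mul_nonneg (mul_nonneg het het) hka) hmu) (mul_nonneg (mul_nonneg (sq_nonneg (y-(1/4))) hu2) het2)))) (mul_nonneg (by norm_num) (mul_nonneg (mul_nonneg (mul_nonneg (sq_nonneg (x-(1/2))) hu) het) (mul_nonneg (mul_nonneg (sq_nonneg (y-(1/2))) hu2) het2)))) (mul_nonneg (by norm_num) (mul_nonneg (mul_nonneg (tan_nn hom (1)) hka) (mul_nonneg (mul_nonneg hu2 hu2) hch2)))) (mul_nonneg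 (by norm_num) (mul_nonneg (mul_nonneg (mul_nonneg (tan_nn hom (1)) hu) hmu) (mul_nonneg hka2 hbh2)))) (mul_nonneg (by norm_num) (mul_nonneg (mul_nonneg hka hbh) (mul_nonneg (mul_nonneg (tan_nn hom2 (1)) hu2) hmu2)))) (mul_nonneg (by norm_num) (mul_nonneg (mul_nonneg (mul_nonneg het hmu) hbh) (mul_nonneg (mul_nonneg (mul_nonneg het2 het2) hmu2) hmu2)))) (mul_nonneg (by norm_num) (mul_nonneg (mul_nonneg hmu hmu) (mul_nonneg (mul_nonneg hu2 hmu2) hbh2)))) (mul_nonneg (by norm_num) (mul_nonneg (mul_nonneg (mul_nonneg (sq_nonneg (x-(1/4))) hu) het) (mul_nonneg (tan_nn hom2 (1)) hka2)))) (mul_nonneg (by norm_num) (mul_nonneg (mul_nonneg (tan_nn hom (1)) hmu) (mul_nonneg hka2 hbh2)))) (mul_nonneg (by norm_num) (mul_nonneg (mul_nonneg hmu hbh) (mul_nonneg (tan_nn hom2 (1)) hka2)))) (mul_nonneg (by norm_num) (mul_nonneg (mul_nonneg hmu hbh) (mul_nonneg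 hmu2 hbh2)))) (mul_nonneg (by norm_num) (mul_nonneg (mul_nonneg (mul_nonneg het hch) hch) (mul_nonneg (mul_nonneg (mul_nonneg hu2 het2) hmu2) hmu2)))) (mul_nonneg (by norm_num) (mul_nonneg (mul_nonneg (mul_nonneg (mul_nonneg hu het) hmu) hmu) (mul_nonneg hbh2 hbh2)))) (mul_nonneg (by norm_num) (mul_nonneg (mul_nonneg hmu hmu) (mul_nonneg hmu2 hbh2)))) (mul_nonneg (by norm_num) (mul_nonneg (mul_nonneg (mul_nonneg hu hka) hbh) (mul_nonneg (tan_nn hom2 (1)) hmu2)))) (mul_nonneg (by norm_num) (mul_nonneg (mul_nonneg hka hbh) (mul_nonneg (mul_nonneg (mul_nonneg het2 het2) hmu2) hmu2)))) (mul_nonneg (by norm_num) (mul_nonneg (mul_nonneg (tan_nn hom (1)) hka) (mul_nonneg (mul_nonneg (sq_nonneg (y-(1/2))) hu2) het2)))) (mul_nonneg (by norm_num) (mul_nonneg (mul_nonneg (mul_nonneg hu hmu) hmu) (mul_nonneg hbh2 hbh2)))) (mul_nonneg (by norm_num) (mul_nonneg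 (mul_nonneg (tan_nn hom (1)) hka) (mul_nonneg (mul_nonneg het2 hmu2) hbh2)))) (mul_nonneg (by norm_num) (mul_nonneg (mul_nonneg (mul_nonneg hu hmu) hbh) (mul_nonneg (tan_nn hom2 (1)) hmu2)))) (mul_nonneg (by norm_num) (mul_nonneg (mul_nonneg (mul_nonneg hu hmu) hbh) (mul_nonneg (tan_nn hom2 (1)) hka2)))) (mul_nonneg (by norm_num) (mul_nonneg (mul_nonneg (mul_nonneg hu hka) hbh) (mul_nonneg hmu2 hmu2)))) (mul_nonneg (by norm_num) (mul_nonneg (mul_nonneg (mul_nonneg het hmu) hbh) (mul_nonneg hka2 hbh2)))) (mul_nonneg (by norm_num) (mul_nonneg (mul_nonneg (mul_nonneg het hmu) hbh) (mul_nonneg (mul_nonneg hu2 hmu2) hbh2)))) (mul_nonneg (by norm_num) (mul_nonneg (mul_nonneg hmu hmu) (mul_nonneg (mul_nonneg hu2 hka2) hbh2)))) (mul_nonneg (by norm_num) (mul_nonneg (mul_nonneg (mul_nonneg hu hmu) hbh) (mul_nonneg hmu2 hbh2)))) (mul_nonneg (by norm_num)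 (mul_nonneg (mul_nonneg hmu hmu) (mul_nonneg (mul_nonneg het2 hka2) hbh2)))) (mul_nonneg (by norm_num) (mul_nonneg (mul_nonneg (mul_nonneg (mul_nonneg het het) hmu) hmu) (mul_nonneg hka2 hbh2)))) (mul_nonneg (by norm_num) (mul_nonneg (mul_nonneg (mul_nonneg (sq_nonneg (x-(1/2))) hu) het) (mul_nonneg (tan_nn hom2 (1)) hka2)))) (mul_nonneg (by norm_num) (mul_nonneg (mul_nonneg (mul_nonneg (sq_nonneg (x-(1/4))) hu) het) (mul_nonneg (mul_nonneg (mul_nonneg het2 het2) hka2) hmu2)))) (mul_nonneg (by norm_num) (mul_nonneg (mul_nonneg (mul_nonneg het hmu) hmu) (mul_nonneg hka2 hbh2)))) (mul_nonneg (by norm_num) (mul_nonneg (mul_nonneg (mul_nonneg hu hka) hbh) (mul_nonneg (mul_nonneg (mul_nonneg het2 het2) hmu2) hmu2)))) (mul_nonneg (by norm_num) (mul_nonneg (mul_nonneg (tan_nn hom (1)) hmu) (mul_nonneg (mul_nonneg het2 hmu2) hbh2)))) (mul_nonneg (by norm_num)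 (mul_nonneg (mul_nonneg hbh hbh) (mul_nonneg (mul_nonneg het2 hmu2) hbh2)))) (mul_nonneg (by norm_num) (mul_nonneg (mul_nonneg (mul_nonneg (mul_nonneg hu het) hmu) hmu) (mul_nonneg (mul_nonneg (mul_nonneg hu2 het2) hmu2) hmu2)))) (mul_nonneg (by norm_num) (mul_nonneg (mul_nonneg (mul_nonneg hu hmu) hbh) (mul_nonneg hbh2 hbh2)))) (mul_nonneg (by norm_num) (mul_nonneg (mul_nonneg (tan_nn hom (1)) hmu) (mul_nonneg (mul_nonneg (sq_nonneg (y-(-1/4))) hu2) het2)))) (mul_nonneg (by norm_num) (mul_nonneg (mul_nonneg (mul_nonneg het het) hom) (mul_nonneg (mul_nonneg (mul_nonneg het2 het2) hka2) hmu2)))) (mul_nonneg (by norm_num) (mul_nonneg (mul_nonneg (mul_nonneg het hch) hch) (mul_nonneg (mul_nonneg het2 hmu2) hbh2)))) (mul_nonneg (by norm_num) (mul_nonneg (mul_nonneg (mul_nonneg het hch) hch) (mul_nonneg (mul_nonneg hu2 hmu2) hbh2)))) (mul_nonneg (by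 norm_num) (mul_nonneg (mul_nonneg (mul_nonneg hu hmu) hbh) (mul_nonneg (mul_nonneg hu2 hmu2) hbh2))))
  positivity

end Vale.Agent.Lib.P154.GW
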