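import Vale.Agent.Lib.P154.GW.Defs2

/-!
The polynomial inequality behind the closure of the class, one region.
-/

namespace Vale.Agent.Lib.P154.GW

set_option maxRecDepth 100000 in
set_option maxHeartbeats 4000000 in
theorem cert2hh {u x v y : ℝ} (h1 : Atoms u x) (h2 : Atoms v y) (hlb : 0 ≤ u - 1 / 2) (hlb2 : 0 ≤ v - 1 / 2) :
    0 ≤ P2g (2 / 3 * u) (2 / 9 * u * x) (2 / 3 * v) (2 / 9 * v * y) := by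
  obtain ⟨hu, het, hka, hmu, hom, hbh, hch⟩ := h1
  obtain ⟨hu2, het2, hka2, hmu2, hom2, hbh2, hch2⟩ := h2
  have key : P2g (2 / 3 * u) (2 / 9 * u * x) (2 / 3 * v) (2 / 9 * v * y)
      = 4 / 9 * u * v * ((1111493/30375000)*(((1+2*x)*(1-3*u+2*u*x)*(u-1/2))*((1+2*y)*(1+2*y))) + (1000471/20250000)*(((1-x)*(1+2*x)*(u-1/2))*((1+2*y)*(1+2*y))) + (7748243/218700000)*(((1+2*x)*(1+2*x))*((1+2*y)*(1-3*v+2*v*y)*(v-1/2))) + (83/2430)*(((1-u)*(1+2*x)*(1+2*x)*(u-1/2))*((1-y)*(1-3*v+2*v*y))) + (162277/3645000)*(((1-u)*(1-u)*(1+2*x)*(1+2*x))*((v-2*(1)*y+(1)^2)*v*(1+2*y))) + (2/135)*(((u-2*(1)*x+(1)^2)*(1-x))*((1-y)*(1-3*v+2*v*y)*(v-1/2))) + (11/4500)*(((u-2*(1)*x+(1)^2)*(1-x))*(v*v*(1+2*y)*(1+2*y))) + (107987/4050000)*(((u-2*(1)*x+(1)^2)*(1+2*x))*((v-2*(1)*y+(1)^2)*(1+2*y))) + (292367/54675000)*((u*(1+2*x)*(1+2*x))*((1-v)*(1+2*y)*(1+2*y)*(v-1/2)))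 + (3655229/218700000)*((u*u*(1+2*x)*(1+2*x))*((v-2*(1)*y+(1)^2)*(1+2*y))) + (9431/202500)*(((u-2*(1)*x+(1)^2)*(1+2*x))*((v-2*(1)*y+(1)^2)*v*(1+2*y))) + (6869/729000)*((u*(1+2*x)*(1+2*x)*(u-1/2))*((1+2*y)*(1-3*v+2*v*y))) + (83/2430)*(((1-x)*(1-3*u+2*u*x))*((1-v)*(1+2*y)*(1+2*y)*(v-1/2))) + (33349/60750)*(((1-x)*(1-3*u+2*u*x))*((1-y)*(1-3*v+2*v*y))) + (91/4320)*(((1-3*u+2*u*x)*(1-3*u+2*u*x))*(v*v*(1+2*y)*(1+2*y))) + (11/4500)*(((1-u)*(1+2*x)*(1+2*x)*(u-1/2))*((v-2*(1)*y+(1)^2)*(1-y))) + (27791/243000)*(((u-2*(1)*x+(1)^2)*(1+2*x))*((v-2*(1)*y+(1)^2)*(1-y))) + (233867/40500000)*(((1-u)*(1+2*x)*(1+2*x))*((1+2*y)*(1+2*y)*(v-1/2))) + (5857489/364500000)*(((1-u)*(1+2*x)*(1+2*x)*(u-1/2))*(v*(1-v)*(1+2*y)*(1+2*y))) + (91/4320)*((u*u*(1+2*x)*(1+2*x))*((1-3*v+2*v*y)*(1-3*v+2*v*y))) + (1/72)*(((1-3*u+2*u*x)*(1-3*u+2*u*x))*((1-y)*(1-3*v+2*v*y)))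 + (538/30375)*(((1+2*x)*(1-3*u+2*u*x))*((v-2*(1)*y+(1)^2)*(1-y))) + (825361/7593750)*(((u-2*(1)*x+(1)^2)*u*(1+2*x))*((1-v)*(1+2*y)*(1+2*y))) + (1/144)*(((1-u)*(1+2*x)*(1-3*u+2*u*x))*((1-y)*(1-3*v+2*v*y))) + (17099297/243000000)*(((1+2*x)*(1-3*u+2*u*x))*(v*(1-v)*(1+2*y)*(1+2*y))) + (3830279/54675000)*(((1-u)*(1+2*x)*(1+2*x)*(u-1/2))*((v-2*(1)*y+(1)^2)*(1+2*y))) + (529/19440)*((u*u*(1+2*x)*(1+2*x))*((1-y)*(1-3*v+2*v*y))) + (851/60750)*(((u-2*(1)*x+(1)^2)*(1-x))*((1-v)*(1+2*y)*(1-3*v+2*v*y))) + (8813/121500)*((u*(1-x)*(1-3*u+2*u*x))*((v-2*(1)*y+(1)^2)*(1+2*y))) + (3907/121500)*(((u-2*(1)*x+(1)^2)*(1-x))*((1+2*y)*(1+2*y))) + (292367/13668750)*(((1+2*x)*(1+2*x))*((v-2*(1)*y+(1)^2)*v*(1+2*y))) + (304471/486000)*(((1-x)*(1-3*u+2*u*x))*((1+2*y)*(1-3*v+2*v*y))) + (7546/84375)*(((1+2*x)*(1-3*u+2*u*x)*(u-1/2))*((v-2*(1)*y+(1)^2)*(1+2*y)))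 + (5858/30375)*(((u-2*(1)*x+(1)^2)*(1-x))*((v-2*(1)*y+(1)^2)*(1-y))) + (1/144)*(((1-x)*(1-3*u+2*u*x))*((1-v)*(1+2*y)*(1-3*v+2*v*y))) + (238607/30375000)*(((1-u)*(1+2*x)*(1+2*x)*(u-1/2))*((1+2*y)*(1+2*y))) + (1/40)*(((1-u)*(1+2*x)*(1-3*u+2*u*x))*(v*(1+2*y)*(1-3*v+2*v*y))) + (186953/3796875)*(((u-2*(1)*x+(1)^2)*(1+2*x))*((1-v)*(1+2*y)*(1+2*y)*(v-1/2))) + (5807/162000)*(((1+2*x)*(1+2*x))*((1-3*v+2*v*y)*(1-3*v+2*v*y))) + (529/19440)*(((1-x)*(1-3*u+2*u*x))*(v*v*(1+2*y)*(1+2*y))) + (5785097/121500000)*(((1+2*x)*(1-3*u+2*u*x)*(u-1/2))*((1-v)*(1-v)*(1+2*y)*(1+2*y))) + (381137/15187500)*(((u-2*(1)*x+(1)^2)*(1+2*x))*(v*v*(1+2*y)*(1+2*y))) + (1301/60750)*(((u-2*(1)*x+(1)^2)*(1-x))*(v*(1+2*y)*(1-3*v+2*v*y))) + (20963573/364500000)*(((1-u)*(1+2*x)*(1+2*x)*(u-1/2))*((1-v)*(1-v)*(1+2*y)*(1+2*y))) + (18439/121500)*(((1+2*x)*(1+2*x))*((1-y)*(1-3*v+2*v*y)*(v-1/2)))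 + (1331/60750)*(((1-x)*(1-3*u+2*u*x)*(u-1/2))*((v-2*(1)*y+(1)^2)*(1+2*y))) + (3379/24300)*(((u-2*(1)*x+(1)^2)*(1-x))*((1-y)*(1-3*v+2*v*y))) + (36589/202500)*(((1+2*x)*(1-3*u+2*u*x))*((v-2*(1)*y+(1)^2)*v*(1+2*y))) + (71347/36450000)*(((1+2*x)*(1+2*x))*((1-y)*(1+2*y)*(v-1/2))) + (241711/81000000)*(((1+2*x)*(1-3*u+2*u*x))*(v*(1+2*y)*(1+2*y))) + (11/4500)*((u*u*(1+2*x)*(1+2*x))*((v-2*(1)*y+(1)^2)*(1-y))) + (1500361/60750000)*(((1-u)*(1+2*x)*(1-3*u+2*u*x))*(v*v*(1+2*y)*(1+2*y))) + (1/480)*(((1-3*u+2*u*x)*(1-3*u+2*u*x))*((1+2*y)*(1-3*v+2*v*y)*(v-1/2))) + (236059/14580000)*((u*(1+2*x)*(1+2*x)*(u-1/2))*((1-v)*(1+2*y)*(1+2*y))) + (194/10125)*(((1+2*x)*(1+2*x))*((v-2*(1)*y+(1)^2)*(1-y))) + (1/72)*(((1-x)*(1-3*u+2*u*x))*((1-3*v+2*v*y)*(1-3*v+2*v*y))) + (40111/337500)*(((u-2*(1)*x+(1)^2)*u*(1+2*x))*((v-2*(1)*y+(1)^2)*(1+2*y)))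 + (58/3375)*((u*(1-x)*(1-3*u+2*u*x))*((1+2*y)*(1+2*y))) + (7/2880)*(((1-3*u+2*u*x)*(1-3*u+2*u*x))*((1+2*y)*(1-3*v+2*v*y))) + (9696983/546750000)*(((1-u)*(1+2*x)*(1+2*x))*((1-v)*(1+2*y)*(1+2*y)*(v-1/2))) + (304471/486000)*(((1+2*x)*(1-3*u+2*u*x))*((1-y)*(1-3*v+2*v*y))) + (11/4500)*(((u-2*(1)*x+(1)^2)*(1-x))*((1-v)*(1+2*y)*(1+2*y)*(v-1/2))) + (69803/1620000)*(((1+2*x)*(1-3*u+2*u*x))*((1+2*y)*(1-3*v+2*v*y)*(v-1/2))) + (1/480)*((u*(1+2*x)*(1-3*u+2*u*x))*((1-3*v+2*v*y)*(1-3*v+2*v*y))) + (11/480)*(((1+2*x)*(1-3*u+2*u*x)*(u-1/2))*((1+2*y)*(1-3*v+2*v*y))) + (1/135)*(((1+2*x)*(1-3*u+2*u*x)*(u-1/2))*((v-2*(1)*y+(1)^2)*(1-y))) + (1151803/121500000)*(((1-u)*(1-u)*(1+2*x)*(1+2*x))*(v*v*(1+2*y)*(1+2*y))) + (28903/405000)*(((u-2*(1)*x+(1)^2)*(1+2*x))*((1+2*y)*(1-3*v+2*v*y)*(v-1/2))) + (3158/30375)*(((1-u)*(1-x)*(1-x)*(u-1/2))*((1+2*y)*(1+2*y)))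 + (31/500) + (1/90)*((u*u*(1+2*x)*(1+2*x))*((1-v)*(1+2*y)*(1-3*v+2*v*y))) + (27791/243000)*(((u-2*(1)*x+(1)^2)*(1-x))*((v-2*(1)*y+(1)^2)*(1+2*y))) + (17/180)*(((u-2*(1)*x+(1)^2)*(1+2*x))*((1-y)*(1-3*v+2*v*y)*(v-1/2))) + (8813/243000)*(((u-2*(1)*x+(1)^2)*(1+2*x))*((1-y)*(1-3*v+2*v*y))) + (3379/24300)*(((1-x)*(1-3*u+2*u*x))*((v-2*(1)*y+(1)^2)*(1-y))) + (1/720)*(((1+2*x)*(1-3*u+2*u*x))*((1-3*v+2*v*y)*(1-3*v+2*v*y))) + (5/216)*(((1-3*u+2*u*x)*(1-3*u+2*u*x))*((1-v)*(1+2*y)*(1+2*y)*(v-1/2))) + (5/216)*(((1-u)*(1+2*x)*(1+2*x)*(u-1/2))*((1-3*v+2*v*y)*(1-3*v+2*v*y))) + (329201/7290000)*(((1-u)*(1-u)*(1+2*x)*(1+2*x))*((1+2*y)*(1-3*v+2*v*y)*(v-1/2))) + (2/135)*(((1-x)*(1-3*u+2*u*x)*(u-1/2))*((v-2*(1)*y+(1)^2)*(1-y)))) := by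
    simp only [P2g, LBg, PP_Nq0, PP_Nq1, PP_Nq2, PP_Nq3, PP_J0, PP_J1, PP_J2]
    ring
  rw [key]
  have hs : 0 ≤ (1111493/30375000)*(((1+2*x)*(1-3*u+2*u*x)*(u-1/2))*((1+2*y)*(1+2*y))) + (1000471/20250000)*(((1-x)*(1+2*x)*(u-1/2))*((1+2*y)*(1+2*y))) + (7748243/218700000)*(((1+2*x)*(1+2*x))*((1+2*y)*(1-3*v+2*v*y)*(v-1/2))) + (83/2430)*(((1-u)*(1+2*x)*(1+2*x)*(u-1/2))*((1-y)*(1-3*v+2*v*y))) + (162277/3645000)*(((1-u)*(1-u)*(1+2*x)*(1+2*x))*((v-2*(1)*y+(1)^2)*v*(1+2*y))) + (2/135)*(((u-2*(1)*x+(1)^2)*(1-x))*((1-y)*(1-3*v+2*v*y)*(v-1/2))) + (11/4500)*(((u-2*(1)*x+(1)^2)*(1-x))*(v*v*(1+2*y)*(1+2*y))) + (107987/4050000)*(((u-2*(1)*x+(1)^2)*(1+2*x))*((v-2*(1)*y+(1)^2)*(1+2*y))) + (292367/54675000)*((u*(1+2*x)*(1+2*x))*((1-v)*(1+2*y)*(1+2*y)*(v-1/2))) + (3655229/218700000)*((u*u*(1+2*x)*(1+2*x))*((v-2*(1)*y+(1)^2)*(1+2*y)))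 + (9431/202500)*(((u-2*(1)*x+(1)^2)*(1+2*x))*((v-2*(1)*y+(1)^2)*v*(1+2*y))) + (6869/729000)*((u*(1+2*x)*(1+2*x)*(u-1/2))*((1+2*y)*(1-3*v+2*v*y))) + (83/2430)*(((1-x)*(1-3*u+2*u*x))*((1-v)*(1+2*y)*(1+2*y)*(v-1/2))) + (33349/60750)*(((1-x)*(1-3*u+2*u*x))*((1-y)*(1-3*v+2*v*y))) + (91/4320)*(((1-3*u+2*u*x)*(1-3*u+2*u*x))*(v*v*(1+2*y)*(1+2*y))) + (11/4500)*(((1-u)*(1+2*x)*(1+2*x)*(u-1/2))*((v-2*(1)*y+(1)^2)*(1-y))) + (27791/243000)*(((u-2*(1)*x+(1)^2)*(1+2*x))*((v-2*(1)*y+(1)^2)*(1-y))) + (233867/40500000)*(((1-u)*(1+2*x)*(1+2*x))*((1+2*y)*(1+2*y)*(v-1/2))) + (5857489/364500000)*(((1-u)*(1+2*x)*(1+2*x)*(u-1/2))*(v*(1-v)*(1+2*y)*(1+2*y))) + (91/4320)*((u*u*(1+2*x)*(1+2*x))*((1-3*v+2*v*y)*(1-3*v+2*v*y))) + (1/72)*(((1-3*u+2*u*x)*(1-3*u+2*u*x))*((1-y)*(1-3*v+2*v*y))) + (538/30375)*(((1+2*x)*(1-3*u+2*u*x))*((v-2*(1)*y+(1)^2)*(1-y)))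 + (825361/7593750)*(((u-2*(1)*x+(1)^2)*u*(1+2*x))*((1-v)*(1+2*y)*(1+2*y))) + (1/144)*(((1-u)*(1+2*x)*(1-3*u+2*u*x))*((1-y)*(1-3*v+2*v*y))) + (17099297/243000000)*(((1+2*x)*(1-3*u+2*u*x))*(v*(1-v)*(1+2*y)*(1+2*y))) + (3830279/54675000)*(((1-u)*(1+2*x)*(1+2*x)*(u-1/2))*((v-2*(1)*y+(1)^2)*(1+2*y))) + (529/19440)*((u*u*(1+2*x)*(1+2*x))*((1-y)*(1-3*v+2*v*y))) + (851/60750)*(((u-2*(1)*x+(1)^2)*(1-x))*((1-v)*(1+2*y)*(1-3*v+2*v*y))) + (8813/121500)*((u*(1-x)*(1-3*u+2*u*x))*((v-2*(1)*y+(1)^2)*(1+2*y))) + (3907/121500)*(((u-2*(1)*x+(1)^2)*(1-x))*((1+2*y)*(1+2*y))) + (292367/13668750)*(((1+2*x)*(1+2*x))*((v-2*(1)*y+(1)^2)*v*(1+2*y))) + (304471/486000)*(((1-x)*(1-3*u+2*u*x))*((1+2*y)*(1-3*v+2*v*y))) + (7546/84375)*(((1+2*x)*(1-3*u+2*u*x)*(u-1/2))*((v-2*(1)*y+(1)^2)*(1+2*y))) + (5858/30375)*(((u-2*(1)*x+(1)^2)*(1-x))*((v-2*(1)*y+(1)^2)*(1-y)))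 + (1/144)*(((1-x)*(1-3*u+2*u*x))*((1-v)*(1+2*y)*(1-3*v+2*v*y))) + (238607/30375000)*(((1-u)*(1+2*x)*(1+2*x)*(u-1/2))*((1+2*y)*(1+2*y))) + (1/40)*(((1-u)*(1+2*x)*(1-3*u+2*u*x))*(v*(1+2*y)*(1-3*v+2*v*y))) + (186953/3796875)*(((u-2*(1)*x+(1)^2)*(1+2*x))*((1-v)*(1+2*y)*(1+2*y)*(v-1/2))) + (5807/162000)*(((1+2*x)*(1+2*x))*((1-3*v+2*v*y)*(1-3*v+2*v*y))) + (529/19440)*(((1-x)*(1-3*u+2*u*x))*(v*v*(1+2*y)*(1+2*y))) + (5785097/121500000)*(((1+2*x)*(1-3*u+2*u*x)*(u-1/2))*((1-v)*(1-v)*(1+2*y)*(1+2*y))) + (381137/15187500)*(((u-2*(1)*x+(1)^2)*(1+2*x))*(v*v*(1+2*y)*(1+2*y))) + (1301/60750)*(((u-2*(1)*x+(1)^2)*(1-x))*(v*(1+2*y)*(1-3*v+2*v*y))) + (20963573/364500000)*(((1-u)*(1+2*x)*(1+2*x)*(u-1/2))*((1-v)*(1-v)*(1+2*y)*(1+2*y))) + (18439/121500)*(((1+2*x)*(1+2*x))*((1-y)*(1-3*v+2*v*y)*(v-1/2))) + (1331/60750)*(((1-x)*(1-3*u+2*u*x)*(u-1/2))*((v-2*(1)*y+(1)^2)*(1+2*y)))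 + (3379/24300)*(((u-2*(1)*x+(1)^2)*(1-x))*((1-y)*(1-3*v+2*v*y))) + (36589/202500)*(((1+2*x)*(1-3*u+2*u*x))*((v-2*(1)*y+(1)^2)*v*(1+2*y))) + (71347/36450000)*(((1+2*x)*(1+2*x))*((1-y)*(1+2*y)*(v-1/2))) + (241711/81000000)*(((1+2*x)*(1-3*u+2*u*x))*(v*(1+2*y)*(1+2*y))) + (11/4500)*((u*u*(1+2*x)*(1+2*x))*((v-2*(1)*y+(1)^2)*(1-y))) + (1500361/60750000)*(((1-u)*(1+2*x)*(1-3*u+2*u*x))*(v*v*(1+2*y)*(1+2*y))) + (1/480)*(((1-3*u+2*u*x)*(1-3*u+2*u*x))*((1+2*y)*(1-3*v+2*v*y)*(v-1/2))) + (236059/14580000)*((u*(1+2*x)*(1+2*x)*(u-1/2))*((1-v)*(1+2*y)*(1+2*y))) + (194/10125)*(((1+2*x)*(1+2*x))*((v-2*(1)*y+(1)^2)*(1-y))) + (1/72)*(((1-x)*(1-3*u+2*u*x))*((1-3*v+2*v*y)*(1-3*v+2*v*y))) + (40111/337500)*(((u-2*(1)*x+(1)^2)*u*(1+2*x))*((v-2*(1)*y+(1)^2)*(1+2*y))) + (58/3375)*((u*(1-x)*(1-3*u+2*u*x))*((1+2*y)*(1+2*y)))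 + (7/2880)*(((1-3*u+2*u*x)*(1-3*u+2*u*x))*((1+2*y)*(1-3*v+2*v*y))) + (9696983/546750000)*(((1-u)*(1+2*x)*(1+2*x))*((1-v)*(1+2*y)*(1+2*y)*(v-1/2))) + (304471/486000)*(((1+2*x)*(1-3*u+2*u*x))*((1-y)*(1-3*v+2*v*y))) + (11/4500)*(((u-2*(1)*x+(1)^2)*(1-x))*((1-v)*(1+2*y)*(1+2*y)*(v-1/2))) + (69803/1620000)*(((1+2*x)*(1-3*u+2*u*x))*((1+2*y)*(1-3*v+2*v*y)*(v-1/2))) + (1/480)*((u*(1+2*x)*(1-3*u+2*u*x))*((1-3*v+2*v*y)*(1-3*v+2*v*y))) + (11/480)*(((1+2*x)*(1-3*u+2*u*x)*(u-1/2))*((1+2*y)*(1-3*v+2*v*y))) + (1/135)*(((1+2*x)*(1-3*u+2*u*x)*(u-1/2))*((v-2*(1)*y+(1)^2)*(1-y))) + (1151803/121500000)*(((1-u)*(1-u)*(1+2*x)*(1+2*x))*(v*v*(1+2*y)*(1+2*y))) + (28903/405000)*(((u-2*(1)*x+(1)^2)*(1+2*x))*((1+2*y)*(1-3*v+2*v*y)*(v-1/2))) + (3158/30375)*(((1-u)*(1-x)*(1-x)*(u-1/2))*((1+2*y)*(1+2*y))) + (31/500) +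 (1/90)*((u*u*(1+2*x)*(1+2*x))*((1-v)*(1+2*y)*(1-3*v+2*v*y))) + (27791/243000)*(((u-2*(1)*x+(1)^2)*(1-x))*((v-2*(1)*y+(1)^2)*(1+2*y))) + (17/180)*(((u-2*(1)*x+(1)^2)*(1+2*x))*((1-y)*(1-3*v+2*v*y)*(v-1/2))) + (8813/243000)*(((u-2*(1)*x+(1)^2)*(1+2*x))*((1-y)*(1-3*v+2*v*y))) + (3379/24300)*(((1-x)*(1-3*u+2*u*x))*((v-2*(1)*y+(1)^2)*(1-y))) + (1/720)*(((1+2*x)*(1-3*u+2*u*x))*((1-3*v+2*v*y)*(1-3*v+2*v*y))) + (5/216)*(((1-3*u+2*u*x)*(1-3*u+2*u*x))*((1-v)*(1+2*y)*(1+2*y)*(v-1/2))) + (5/216)*(((1-u)*(1+2*x)*(1+2*x)*(u-1/2))*((1-3*v+2*v*y)*(1-3*v+2*v*y))) + (329201/7290000)*(((1-u)*(1-u)*(1+2*x)*(1+2*x))*((1+2*y)*(1-3*v+2*v*y)*(v-1/2))) + (2/135)*(((1-x)*(1-3*u+2*u*x)*(u-1/2))*((v-2*(1)*y+(1)^2)*(1-y))) :=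
    (add_nonneg (add_nonneg (add_nonneg (add_nonneg (add_nonneg (add_nonneg (add_nonneg (add_nonneg (add_nonneg (add_nonneg (add_nonneg (add_nonneg (add_nonneg (add_nonneg (add_nonneg (add_nonneg (add_nonneg (add_nonneg (add_nonneg (add_nonneg (add_nonneg (add_nonneg (add_nonneg (add_nonneg (add_nonneg (add_nonneg (add_nonneg (add_nonneg (add_nonneg (add_nonneg (add_nonneg (add_nonneg (add_nonneg (add_nonneg (add_nonneg (add_nonneg (add_nonneg (add_nonneg (add_nonneg (add_nonneg (add_nonneg (add_nonneg (add_nonneg (add_nonneg (add_nonneg (add_nonneg (add_nonneg (add_nonneg (add_nonneg (add_nonneg (add_nonneg (add_nonneg (add_nonneg (add_nonneg (add_nonneg (add_nonneg (add_nonneg (add_nonneg (add_nonneg (add_nonneg (add_nonneg (add_nonneg (add_nonneg (add_nonneg (add_nonneg (add_nonneg (add_nonneg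 (add_nonneg (add_nonneg (add_nonneg (add_nonneg (add_nonneg (add_nonneg (add_nonneg (add_nonneg (add_nonneg (add_nonneg (add_nonneg (add_nonneg (mul_nonneg (by norm_num) (mul_nonneg (mul_nonneg (mul_nonneg hmu hbh) hlb) (mul_nonneg hmu2 hmu2))) (mul_nonneg (by norm_num) (mul_nonneg (mul_nonneg (mul_nonneg hka hmu) hlb) (mul_nonneg hmu2 hmu2)))) (mul_nonneg (by norm_num) (mul_nonneg (mul_nonneg hmu hmu) (mul_nonneg (mul_nonneg hmu2 hbh2) hlb2)))) (mul_nonneg (by norm_num) (mul_nonneg (mul_nonneg (mul_nonneg (mul_nonneg het hmu) hmu) hlb) (mul_nonneg hka2 hbh2)))) (mul_nonneg (by norm_num) (mul_nonneg (mul_nonneg (mul_nonneg (mul_nonneg het het) hmu) hmu) (mul_nonneg (mul_nonneg (tan_nn hom2 (1)) hu2) hmu2)))) (mul_nonneg (by norm_num) (mul_nonneg (mul_nonneg (tan_nn hom (1)) hka) (mul_nonneg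 (mul_nonneg hka2 hbh2) hlb2)))) (mul_nonneg (by norm_num) (mul_nonneg (mul_nonneg (tan_nn hom (1)) hka) (mul_nonneg (mul_nonneg (mul_nonneg hu2 hu2) hmu2) hmu2)))) (mul_nonneg (by norm_num) (mul_nonneg (mul_nonneg (tan_nn hom (1)) hmu) (mul_nonneg (tan_nn hom2 (1)) hmu2)))) (mul_nonneg (by norm_num) (mul_nonneg (mul_nonneg (mul_nonneg hu hmu) hmu) (mul_nonneg (mul_nonneg (mul_nonneg het2 hmu2) hmu2) hlb2)))) (mul_nonneg (by norm_num) (mul_nonneg (mul_nonneg (mul_nonneg (mul_nonneg hu hu) hmu) hmu) (mul_nonneg (tan_nn hom2 (1)) hmu2)))) (mul_nonneg (by norm_num) (mul_nonneg (mul_nonneg (tan_nn hom (1)) hmu) (mul_nonneg (mul_nonneg (tan_nn hom2 (1)) hu2) hmu2)))) (mul_nonneg (by norm_num) (mul_nonneg (mul_nonneg (mul_nonneg (mul_nonneg hu hmu) hmu) hlb) (mul_nonneg hmu2 hbh2)))) (mul_nonneg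 (by norm_num) (mul_nonneg (mul_nonneg hka hbh) (mul_nonneg (mul_nonneg (mul_nonneg het2 hmu2) hmu2) hlb2)))) (mul_nonneg (by norm_num) (mul_nonneg (mul_nonneg hka hbh) (mul_nonneg hka2 hbh2)))) (mul_nonneg (by norm_num) (mul_nonneg (mul_nonneg hbh hbh) (mul_nonneg (mul_nonneg (mul_nonneg hu2 hu2) hmu2) hmu2)))) (mul_nonneg (by norm_num) (mul_nonneg (mul_nonneg (mul_nonneg (mul_nonneg het hmu) hmu) hlb) (mul_nonneg (tan_nn hom2 (1)) hka2)))) (mul_nonneg (by norm_num) (mul_nonneg (mul_nonneg (tan_nn hom (1)) hmu) (mul_nonneg (tan_nn hom2 (1)) hka2)))) (mul_nonneg (by norm_num) (mul_nonneg (mul_nonneg (mul_nonneg het hmu) hmu) (mul_nonneg (mul_nonneg hmu2 hmu2) hlb2)))) (mul_nonneg (by norm_num) (mul_nonneg (mul_nonneg (mul_nonneg (mul_nonneg het hmu) hmu) hlb) (mul_nonneg (mul_nonneg (mul_nonneg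 hu2 het2) hmu2) hmu2)))) (mul_nonneg (by norm_num) (mul_nonneg (mul_nonneg (mul_nonneg (mul_nonneg hu hu) hmu) hmu) (mul_nonneg hbh2 hbh2)))) (mul_nonneg (by norm_num) (mul_nonneg (mul_nonneg hbh hbh) (mul_nonneg hka2 hbh2)))) (mul_nonneg (by norm_num) (mul_nonneg (mul_nonneg hmu hbh) (mul_nonneg (tan_nn hom2 (1)) hka2)))) (mul_nonneg (by norm_num) (mul_nonneg (mul_nonneg (mul_nonneg (tan_nn hom (1)) hu) hmu) (mul_nonneg (mul_nonneg het2 hmu2) hmu2)))) (mul_nonneg (by norm_num) (mul_nonneg (mul_nonneg (mul_nonneg het hmu) hbh) (mul_nonneg hka2 hbh2)))) (mul_nonneg (by norm_num) (mul_nonneg (mul_nonneg hmu hbh) (mul_nonneg (mul_nonneg (mul_nonneg hu2 het2) hmu2) hmu2)))) (mul_nonneg (by norm_num) (mul_nonneg (mul_nonneg (mul_nonneg (mul_nonneg het hmu) hmu) hlb) (mul_nonneg (tan_nn hom2 (1))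 hmu2)))) (mul_nonneg (by norm_num) (mul_nonneg (mul_nonneg (mul_nonneg (mul_nonneg hu hu) hmu) hmu) (mul_nonneg hka2 hbh2)))) (mul_nonneg (by norm_num) (mul_nonneg (mul_nonneg (tan_nn hom (1)) hka) (mul_nonneg (mul_nonneg het2 hmu2) hbh2)))) (mul_nonneg (by norm_num) (mul_nonneg (mul_nonneg (mul_nonneg hu hka) hbh) (mul_nonneg (tan_nn hom2 (1)) hmu2)))) (mul_nonneg (by norm_num) (mul_nonneg (mul_nonneg (tan_nn hom (1)) hka) (mul_nonneg hmu2 hmu2)))) (mul_nonneg (by norm_num) (mul_nonneg (mul_nonneg hmu hmu) (mul_nonneg (mul_nonneg (tan_nn hom2 (1)) hu2) hmu2)))) (mul_nonneg (by norm_num) (mul_nonneg (mul_nonneg hka hbh) (mul_nonneg hmu2 hbh2)))) (mul_nonneg (by norm_num) (mul_nonneg (mul_nonneg (mul_nonneg hmu hbh) hlb) (mul_nonneg (tan_nn hom2 (1)) hmu2)))) (mul_nonneg (by norm_num) (mul_nonneg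 (mul_nonneg (tan_nn hom (1)) hka) (mul_nonneg (tan_nn hom2 (1)) hka2)))) (mul_nonneg (by norm_num) (mul_nonneg (mul_nonneg hka hbh) (mul_nonneg (mul_nonneg het2 hmu2) hbh2)))) (mul_nonneg (by norm_num) (mul_nonneg (mul_nonneg (mul_nonneg (mul_nonneg het hmu) hmu) hlb) (mul_nonneg hmu2 hmu2)))) (mul_nonneg (by norm_num) (mul_nonneg (mul_nonneg (mul_nonneg het hmu) hbh) (mul_nonneg (mul_nonneg hu2 hmu2) hbh2)))) (mul_nonneg (by norm_num) (mul_nonneg (mul_nonneg (tan_nn hom (1)) hmu) (mul_nonneg (mul_nonneg (mul_nonneg het2 hmu2) hmu2) hlb2)))) (mul_nonneg (by norm_num) (mul_nonneg (mul_nonneg hmu hmu) (mul_nonneg hbh2 hbh2)))) (mul_nonneg (by norm_num) (mul_nonneg (mul_nonneg hka hbh) (mul_nonneg (mul_nonneg (mul_nonneg hu2 hu2) hmu2) hmu2)))) (mul_nonneg (by norm_num) (mul_nonneg (mul_nonneg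 (mul_nonneg hmu hbh) hlb) (mul_nonneg (mul_nonneg (mul_nonneg het2 het2) hmu2) hmu2)))) (mul_nonneg (by norm_num) (mul_nonneg (mul_nonneg (tan_nn hom (1)) hmu) (mul_nonneg (mul_nonneg (mul_nonneg hu2 hu2) hmu2) hmu2)))) (mul_nonneg (by norm_num) (mul_nonneg (mul_nonneg (tan_nn hom (1)) hka) (mul_nonneg (mul_nonneg hu2 hmu2) hbh2)))) (mul_nonneg (by norm_num) (mul_nonneg (mul_nonneg (mul_nonneg (mul_nonneg het hmu) hmu) hlb) (mul_nonneg (mul_nonneg (mul_nonneg het2 het2) hmu2) hmu2)))) (mul_nonneg (by norm_num) (mul_nonneg (mul_nonneg hmu hmu) (mul_nonneg (mul_nonneg hka2 hbh2) hlb2)))) (mul_nonneg (by norm_num) (mul_nonneg (mul_nonneg (mul_nonneg hka hbh) hlb) (mul_nonneg (tan_nn hom2 (1)) hmu2)))) (mul_nonneg (by norm_num) (mul_nonneg (mul_nonneg (tan_nn hom (1)) hka) (mul_nonneg hka2 hbh2))))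 (mul_nonneg (by norm_num) (mul_nonneg (mul_nonneg hmu hbh) (mul_nonneg (mul_nonneg (tan_nn hom2 (1)) hu2) hmu2)))) (mul_nonneg (by norm_num) (mul_nonneg (mul_nonneg hmu hmu) (mul_nonneg (mul_nonneg hka2 hmu2) hlb2)))) (mul_nonneg (by norm_num) (mul_nonneg (mul_nonneg hmu hbh) (mul_nonneg (mul_nonneg hu2 hmu2) hmu2)))) (mul_nonneg (by norm_num) (mul_nonneg (mul_nonneg (mul_nonneg (mul_nonneg hu hu) hmu) hmu) (mul_nonneg (tan_nn hom2 (1)) hka2)))) (mul_nonneg (by norm_num) (mul_nonneg (mul_nonneg (mul_nonneg het hmu) hbh) (mul_nonneg (mul_nonneg (mul_nonneg hu2 hu2) hmu2) hmu2)))) (mul_nonneg (by norm_num) (mul_nonneg (mul_nonneg hbh hbh) (mul_nonneg (mul_nonneg hmu2 hbh2) hlb2)))) (mul_nonneg (by norm_num) (mul_nonneg (mul_nonneg (mul_nonneg (mul_nonneg hu hmu) hmu) hlb) (mul_nonneg (mul_nonneg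 het2 hmu2) hmu2)))) (mul_nonneg (by norm_num) (mul_nonneg (mul_nonneg hmu hmu) (mul_nonneg (tan_nn hom2 (1)) hka2)))) (mul_nonneg (by norm_num) (mul_nonneg (mul_nonneg hka hbh) (mul_nonneg hbh2 hbh2)))) (mul_nonneg (by norm_num) (mul_nonneg (mul_nonneg (mul_nonneg (tan_nn hom (1)) hu) hmu) (mul_nonneg (tan_nn hom2 (1)) hmu2)))) (mul_nonneg (by norm_num) (mul_nonneg (mul_nonneg (mul_nonneg hu hka) hbh) (mul_nonneg hmu2 hmu2)))) (mul_nonneg (by norm_num) (mul_nonneg (mul_nonneg hbh hbh) (mul_nonneg hmu2 hbh2)))) (mul_nonneg (by norm_num) (mul_nonneg (mul_nonneg (mul_nonneg het hmu) hmu) (mul_nonneg (mul_nonneg (mul_nonneg het2 hmu2) hmu2) hlb2)))) (mul_nonneg (by norm_num) (mul_nonneg (mul_nonneg hmu hbh) (mul_nonneg hka2 hbh2)))) (mul_nonneg (by norm_num) (mul_nonneg (mul_nonneg (tan_nn hom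 (1)) hka) (mul_nonneg (mul_nonneg (mul_nonneg het2 hmu2) hmu2) hlb2)))) (mul_nonneg (by norm_num) (mul_nonneg (mul_nonneg hmu hbh) (mul_nonneg (mul_nonneg hmu2 hbh2) hlb2)))) (mul_nonneg (by norm_num) (mul_nonneg (mul_nonneg (mul_nonneg hu hmu) hbh) (mul_nonneg hbh2 hbh2)))) (mul_nonneg (by norm_num) (mul_nonneg (mul_nonneg (mul_nonneg hmu hbh) hlb) (mul_nonneg hmu2 hbh2)))) (mul_nonneg (by norm_num) (mul_nonneg (mul_nonneg (mul_nonneg hmu hbh) hlb) (mul_nonneg (tan_nn hom2 (1)) hka2)))) (mul_nonneg (by norm_num) (mul_nonneg (mul_nonneg (mul_nonneg (mul_nonneg het het) hmu) hmu) (mul_nonneg (mul_nonneg (mul_nonneg hu2 hu2) hmu2) hmu2)))) (mul_nonneg (by norm_num) (mul_nonneg (mul_nonneg (tan_nn hom (1)) hmu) (mul_nonneg (mul_nonneg hmu2 hbh2) hlb2)))) (mul_nonneg (by norm_num) (mul_nonneg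 (mul_nonneg (mul_nonneg (mul_nonneg het hka) hka) hlb) (mul_nonneg hmu2 hmu2)))) (by norm_num : (0:ℝ) ≤ (31/500))) (mul_nonneg (by norm_num) (mul_nonneg (mul_nonneg (mul_nonneg (mul_nonneg hu hu) hmu) hmu) (mul_nonneg (mul_nonneg het2 hmu2) hbh2)))) (mul_nonneg (by norm_num) (mul_nonneg (mul_nonneg (tan_nn hom (1)) hka) (mul_nonneg (tan_nn hom2 (1)) hmu2)))) (mul_nonneg (by norm_num) (mul_nonneg (mul_nonneg (tan_nn hom (1)) hmu) (mul_nonneg (mul_nonneg hka2 hbh2) hlb2)))) (mul_nonneg (by norm_num) (mul_nonneg (mul_nonneg (tan_nn hom (1)) hmu) (mul_nonneg hka2 hbh2)))) (mul_nonneg (by norm_num) (mul_nonneg (mul_nonneg hka hbh) (mul_nonneg (tan_nn hom2 (1)) hka2)))) (mul_nonneg (by norm_num) (mul_nonneg (mul_nonneg hmu hbh) (mul_nonneg hbh2 hbh2)))) (mul_nonneg (by norm_num) (mul_nonneg (mul_nonneg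 hbh hbh) (mul_nonneg (mul_nonneg (mul_nonneg het2 hmu2) hmu2) hlb2)))) (mul_nonneg (by norm_num) (mul_nonneg (mul_nonneg (mul_nonneg (mul_nonneg het hmu) hmu) hlb) (mul_nonneg hbh2 hbh2)))) (mul_nonneg (by norm_num) (mul_nonneg (mul_nonneg (mul_nonneg (mul_nonneg het het) hmu) hmu) (mul_nonneg (mul_nonneg hmu2 hbh2) hlb2)))) (mul_nonneg (by norm_num) (mul_nonneg (mul_nonneg (mul_nonneg hka hbh) hlb) (mul_nonneg (tan_nn hom2 (1)) hka2))))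
  positivity

end Vale.Agent.Lib.P154.GW
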