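import Vale.Agent.Lib.P154.GW.Defs2

/-!
The polynomial inequality behind the closure of the class, one region.
-/

namespace Vale.Agent.Lib.P154.GW

set_option maxRecDepth 100000 in
set_option maxHeartbeats 4000000 in
theorem cert2lh {u x v y : ℝ} (h1 : Atoms u x) (h2 : Atoms v y) (hla : 0 ≤ 1 / 2 - u) (hlb2 : 0 ≤ v - 1 / 2) :
    0 ≤ P2g (2 / 3 * u) (2 / 9 * u * x) (2 / 3 * v) (2 / 9 * v * y) := by
  obtain ⟨hu, het, hka, hmu, hom, hbh, hch⟩ := h1
  obtain ⟨hu2, het2, hka2, hmu2, hom2, hbh2, hch2⟩ := h2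
  have key : P2g (2 / 3 * u) (2 / 9 * u * x) (2 / 3 * v) (2 / 9 * v * y)
      = 4 / 9 * u * v * ((807997490672941035882639509177857/43507741005976252503596917127976000)*(((1-x)*(1-3*u+2*u*x))*((1+2*y)*(1-3*v+2*v*y)*(v-1/2))) + (4316290747684451384238165356684879/130523223017928757510790751383928000)*((u*(1-u)*(u-x^2))*((1+2*y)*(1+2*y))) + (224248650566671573733824236532931/226602817739459648456233943374875)*(((u-2*(1)*x+(1)^2)*u*(1-x))*((y-(1/2))^2*v)) + (8109869604585595818483212393298301/6118276078965410508318316471121625)*(((u-2*(1/4)*x+(1/4)^2)*(1-x))*((v-2*(1)*y+(1)^2)*v*(1+2*y))) + (11/720)*((u*u*(1+2*x)*(1+2*x))*((1-3*v+2*v*y)*(1-3*v+2*v*y))) + (89721329343661548886061372072547043/652616115089643787553953756919640000)*(((u-2*(1)*x+(1)^2)*u*(1+2*x))*((1-y)*(1-3*v+2*v*y))) + (33030304326549897904066133136538463/32630805754482189377697687845982000)*((u*(1-u)*(1+2*x)*(1+2*x))*((1-y)*(1-y)*(v-1/2))) + (55253133525343981325208350722967513/234941801432271763519423352491070400)*(((1-u)*(1-u)*(1+2*x)*(1+2*x))*((1+2*y)*(1-3*v+2*v*y)*(v-1/2)))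 + (47274754889118641922041676188854/226602817739459648456233943374875)*(((u-2*(1)*x+(1)^2)*u*(1-x))*((1+2*y)*(1+2*y)*(v-1/2)*(v-1/2))) + (206616462917758766107176804176327/13052322301792875751079075138392800)*((u*(1+2*x)*(1+2*x))*((v-2*(3/4)*y+(3/4)^2)*(1+2*y))) + (16180295873357063439905997235993547/783139338107572545064744508303568000)*((u*u*(1+2*x)*(1+2*x))*((1-v)*(1+2*y)*(1+2*y)*(v-1/2))) + (124437927988714633690543548759613/4350774100597625250359691712797600)*(((1-3*u+2*u*x)*(1-3*u+2*u*x))*((1-y)*(1+2*y)*(v-1/2)*(v-1/2))) + (3886953024022332219051203291428727/130523223017928757510790751383928000)*((u*u*(1+x-2*u))*((1+2*y)*(1+2*y)*(v-1/2))) + (8357208806459604135676077096170827/27192338128735157814748073204985000)*(((u-2*(1)*x+(1)^2)*(1+2*x))*((1-y)*(1-3*v+2*v*y))) + (247943354224118992350209125108426039/783139338107572545064744508303568000)*(((u-2*(1)*x+(1)^2)*u*(1+2*x))*((1+2*y)*(1-3*v+2*v*y)*(v-1/2))) + (1/108)*(((1+2*x)*(1-3*u+2*u*x))*((1-v)*(1-y)*(1-3*v+2*v*y)))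 + (11/270)*(((1+2*x)*(1+2*x))*((1-y)*(1-3*v+2*v*y)*(v-1/2))) + (60924456991258695981348100131203233/65261611508964378755395375691964000)*(((1-u)*(1-u)*(1+2*x)*(1+2*x))*((1-y)*(1+2*y)*(v-1/2)*(v-1/2))) + (393023796086398579888467081716119/906411270957838593824935773499500)*(((1-x)*(1-3*u+2*u*x))*((1-y)*(1-3*v+2*v*y))) + (511656064468347696431842725053611/32630805754482189377697687845982000)*((u*(1+x-2*u)*(1+x-2*u))*((1+2*y)*(1+2*y)*(v-1/2)*(v-1/2))) + (3487373379858257457832495102243/25178090859939960939581549263875)*(((1-3*u+2*u*x)*(1-3*u+2*u*x))*((y-(3/4))^2*v*(1-v))) + (15313686563989932234094126945363043/21753870502988126251798458563988000)*(((1-u)*(1-u)*(1+2*x)*(1+2*x))*((1-y)*(1-3*v+2*v*y)*(v-1/2))) + (20550162898054134245302080951884033/261046446035857515021581502767856000)*((u*(1-x)*(1-3*u+2*u*x))*((1-3*v+2*v*y)*(1-3*v+2*v*y))) + (6336147012147132748420046580594673/21753870502988126251798458563988000)*(((1-u)*(u-x^2))*((1-v)*(1+2*y)*(1+2*y)*(v-1/2)))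 + (4634505410440751957594505150645779/16315402877241094688848843922991000)*(((1-x)*(1-x)*(1/2-u)*(1/2-u))*((1+2*y)*(1-3*v+2*v*y))) + (3612546592745549475051643212290629/16315402877241094688848843922991000)*(((u-2*(1/4)*x+(1/4)^2)*u*(1+2*x))*((1-v)*(1-v)*(1+2*y)*(1+2*y))) + (17/180)*(((u-2*(1)*x+(1)^2)*(1+2*x))*((1-y)*(1-3*v+2*v*y)*(v-1/2))) + (7802057031511036630246214375295259/391569669053786272532372254151784000)*(((u-2*(1)*x+(1)^2)*u*(1+2*x))*((1+2*y)*(1+2*y)*(v-1/2)*(v-1/2))) + (22083/219200) + (53742864911987869822710521908538801/130523223017928757510790751383928000)*((u*(1-x)*(1-3*u+2*u*x))*((1+2*y)*(1-3*v+2*v*y)*(v-1/2))) + (113228350869816427336475109025261/5438467625747031562949614640997000)*(((u-2*(-1/2)*x+(-1/2)^2)*(1+2*x))*((1+2*y)*(1+2*y)*(v-1/2)*(v-1/2))) + (375195112964419991539855189871/58010321341301670004795889503968)*(((1-u)*(1+2*x)*(1-3*u+2*u*x))*((1-v)*(1-y)*(1-3*v+2*v*y))) + (89726447498157204968567961182397037/195784834526893136266186127075892000)*((u*(1+2*x)*(1+2*x)*(1/2-u))*((1-y)*(1+2*y)*(v-1/2)))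 + (1948012797934369919919338154690409/32630805754482189377697687845982000)*(((1+2*x)*(1+2*x)*(1/2-u))*((1+2*y)*(1+2*y)*(v-1/2)*(v-1/2))) + (123911942903543094855091150911004/1223655215793082101663663294224325)*(((u-2*(1/4)*x+(1/4)^2)*(1+2*x))*((1+2*y)*(1-3*v+2*v*y))) + (30558234106240924812284736528136483/10876935251494063125899229281994000)*(((u-2*(1)*x+(1)^2)*u*(1+2*x))*((1-y)*(1-y)*(v-1/2))) + (469076503711330374358269102553541/181282254191567718764987154699900)*(((1-u)*(1-x)*(1-3*u+2*u*x))*((y-(1/2))^2*v*(v-1/2))) + (3191659704562891033732230110628511/6118276078965410508318316471121625)*(((u-2*(1/4)*x+(1/4)^2)*(1-x))*((1-v)*(1+2*y)*(1+2*y)*(v-1/2))) + (58938011366735205632700052280862973/783139338107572545064744508303568000)*((u*(1+2*x)*(1-3*u+2*u*x))*((1-v)*(1+2*y)*(1+2*y)*(v-1/2))) + (3371089604243810197762817111717209/48946208631723284066546531768973000)*((u*(1+2*x)*(1-3*u+2*u*x))*((v-2*(3/4)*y+(3/4)^2)*(1+2*y))) + (305182597224292079186615891647528/75534272579819882818744647791625)*(((1-x)*(1-3*u+2*u*x))*((y-(3/4))^2*v*(1-v)))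 + (1232984446145614967608657166871353/2719233812873515781474807320498500)*(((1-u)*(1-u)*(u-x^2))*((v-2*(3/4)*y+(3/4)^2)*(1+2*y))) + (268490131806488880546622103681079599/391569669053786272532372254151784000)*((u*(1-x)*(1-3*u+2*u*x))*((1-y)*(1+2*y)*(v-1/2))) + (5583105243314438852163105466938259/65261611508964378755395375691964000)*((u*(1-u)*(u-x^2))*((v-2*(1)*y+(1)^2)*(1+2*y))) + (61018889575066878273156971017178519/391569669053786272532372254151784000)*((u*(1-x)*(1-3*u+2*u*x))*((1-y)*(1-3*v+2*v*y))) + (1272713945553550215868442493704921/12236552157930821016636632942243250)*(((u-2*(1)*x+(1)^2)*(1-x))*((1+2*y)*(1-3*v+2*v*y)*(v-1/2))) + (148496326434571886262190472099003/8157701438620547344424421961495500)*((u*u*(u-x^2))*(v*v*(1+2*y)*(1+2*y))) + (11607602913236711961650368800364393/16315402877241094688848843922991000)*((u*u*(1-x)*(1+2*x))*((v-2*(1)*y+(1)^2)*(1-y))) + (96091044078785342708071709154454643/97892417263446568133093063537946000)*((u*(1+2*x)*(1-3*u+2*u*x))*((1-v)*(1-y)*(1+2*y)*(v-1/2)))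 + (12250814310348304310794401501878557/16315402877241094688848843922991000)*((u*(1-x)*(1-3*u+2*u*x))*((v-2*(1)*y+(1)^2)*(v-1/2))) + (1483596963209211582057229366427423/2175387050298812625179845856398800)*(((1-x)*(1-3*u+2*u*x))*((1-v)*(1-y)*(1-3*v+2*v*y))) + (829435291433210665800468450340853/4078850719310273672212210980747750)*(((u-2*(-1/4)*x+(-1/4)^2)*u*u)*((1+2*y)*(1-3*v+2*v*y))) + (36462457974767492340957511677769/107426521002410500008881276859200)*(((u-2*(1)*x+(1)^2)*u*(1+2*x))*((1-y)*(1+2*y)*(v-1/2))) + (40065388024689852853154639156820079/2349418014322717635194233524910704000)*(((1+2*x)*(1+2*x))*((1+2*y)*(1-3*v+2*v*y)*(v-1/2))) + (2785623376296191797815109449730432/6118276078965410508318316471121625)*(((u-2*(1/4)*x+(1/4)^2)*(1-x))*((v-2*(1)*y+(1)^2)*(1-y))) + (5717491182746688308834359250331757/16315402877241094688848843922991000)*(((u-2*(1/2)*x+(1/2)^2)*(1/2-u))*((1+2*y)*(1-3*v+2*v*y))) + (897996732569089548364732667372527/32630805754482189377697687845982000)*((u*(1+2*x)*(1+2*x)*(1/2-u))*((v-2*(3/4)*y+(3/4)^2)*(1+2*y)))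 + (2827672937197455665307922530414419/5438467625747031562949614640997000)*(((u-x^2))*((v-2*(1)*y+(1)^2)*(1-y))) + (7039622182918898047466140597281893/52209289207171503004316300553571200)*(((1-u)*(1+2*x)*(1-3*u+2*u*x))*((1+2*y)*(1-3*v+2*v*y)*(v-1/2))) + (2048986325425921015667940215636303/12236552157930821016636632942243250)*(((u-2*(1)*x+(1)^2)*(1-x))*((1-y)*(1-3*v+2*v*y))) + (2/135)*(((u-2*(1)*x+(1)^2)*(1-x))*(v*(1-y)*(1-3*v+2*v*y))) + (943979389914648083895358740382889/2719233812873515781474807320498500)*(((u-2*(-1/2)*x+(-1/2)^2)*u*(1-x))*((v-2*(1)*y+(1)^2)*(1-y))) + (82876345711802776679851735340387549/391569669053786272532372254151784000)*((u*(1-x)*(1-3*u+2*u*x))*((1+2*y)*(1+2*y)*(v-1/2)*(v-1/2))) + (22168114289325679562211998971876/25178090859939960939581549263875)*(((u-2*(1/4)*x+(1/4)^2)*(1/2-u))*((1-v)*(1-v)*(1-y)*(1+2*y))) + (2041423391707755948283797716424631/783139338107572545064744508303568000)*((u*(1-x)*(1-3*u+2*u*x))*((1-v)*(1-v)*(1+2*y)*(1+2*y)))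 + (961043399111768065983712839697093/21753870502988126251798458563988000)*(((u-2*(1/2)*x+(1/2)^2)*u*(1+2*x))*((1-v)*(1-v)*(1+2*y)*(1+2*y))) + (4234092576947755239845266982433941/78313933810757254506474450830356800)*((u*(1+2*x)*(1+2*x))*((1-y)*(1+2*y)*(v-1/2))) + (88093084572719636052648541705547/14502580335325417501198972375992000)*((u*u*(1+2*x)*(1+2*x))*((1+2*y)*(1+2*y)*(v-1/2))) + (56470968519364424246644648638486343/163154028772410946888488439229910000)*((u*(1+2*x)*(1+2*x)*(1/2-u))*((1-y)*(1-3*v+2*v*y))) + (10468318444684802803188861564474617/234941801432271763519423352491070400)*((u*(1+2*x)*(1+2*x)*(1/2-u))*((1+2*y)*(1-3*v+2*v*y)*(v-1/2))) + (29056249195667361839286745211090137/32630805754482189377697687845982000)*(((1-u)*(1-u)*(u-x^2))*((1-y)*(1+2*y)*(v-1/2))) + (10761687863568991213625941987239607/783139338107572545064744508303568000)*((u*(1+2*x)*(1+2*x))*((1-v)*(1+2*y)*(1+2*y)*(v-1/2))) + (14306562929592333796510864974808043/8157701438620547344424421961495500)*(((1-u)*(1-u)*(1+2*x)*(1+2*x))*((1-y)*(1-y)*(v-1/2)*(v-1/2)))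 + (103883088251875830436618869729956/75534272579819882818744647791625)*(((u-2*(1/4)*x+(1/4)^2)*(1/2-u))*((v-2*(1)*y+(1)^2)*(1-y))) + (5442193717886867959395477996766357/65261611508964378755395375691964000)*(((u-2*(1)*x+(1)^2)*u*(1+2*x))*((v-2*(1)*y+(1)^2)*v*(1+2*y))) + (54576735216224897678163759307028/679808453218378945368701830124625)*(((u-2*(1/4)*x+(1/4)^2)*(1-x))*((v-2*(3/4)*y+(3/4)^2)*(1+2*y))) + (13599934699607554523442548677278901/4078850719310273672212210980747750)*(((u-2*(1/4)*x+(1/4)^2)*(1/2-u))*((1+2*y)*(1-3*v+2*v*y))) + (4130934830593371795624047969426653/65261611508964378755395375691964000)*(((u-x^2))*((1+2*y)*(1+2*y)*(v-1/2))) + (2547693844734627669758293027443761/130523223017928757510790751383928000)*((u*u*(u-x^2))*((1+2*y)*(1+2*y))) + (103289365988655964317304750170689/1631540287724109468884884392299100)*((u*u*(1+2*x)*(1+2*x))*((v-2*(1)*y+(1)^2)*(1-y))) + (8098307180394084761319024790577581/217538705029881262517984585639880000)*(((1-u)*(1+2*x)*(1+2*x))*((1-y)*(1-3*v+2*v*y)))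 + (123335519571289908438375271677629/553064504313257447079621827898000)*((u*(1-x)*(1-3*u+2*u*x))*((v-2*(3/4)*y+(3/4)^2)*(1+2*y))) + (110025398483819930449005532858769/679808453218378945368701830124625)*((u*u*(1+x-2*u))*((v-2*(1)*y+(1)^2)*v*(1+2*y))) + (24519815782751697320519683818863603/48946208631723284066546531768973000)*((u*(1+2*x)*(1-3*u+2*u*x))*((v-2*(3/4)*y+(3/4)^2)*v*(1+2*y))) + (23148213485839883346824016314626531/81577014386205473444244219614955000)*(((1+2*x)*(1-3*u+2*u*x)*(1/2-u))*((1-y)*(1-3*v+2*v*y))) + (110025398483819930449005532858769/5438467625747031562949614640997000)*(((1-u)*(1+x-2*u)*(1+x-2*u))*((1+2*y)*(1-3*v+2*v*y)*(v-1/2))) + (7023707808805829824311079592293231/40788507193102736722122109807477500)*((u*(1+2*x)*(1+2*x))*((1-y)*(1-3*v+2*v*y)))) := by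
    simp only [P2g, LBg, PP_Nq0, PP_Nq1, PP_Nq2, PP_Nq3, PP_J0, PP_J1, PP_J2]
    ring
  rw [key]
  have hs : 0 ≤ (807997490672941035882639509177857/43507741005976252503596917127976000)*(((1-x)*(1-3*u+2*u*x))*((1+2*y)*(1-3*v+2*v*y)*(v-1/2))) + (4316290747684451384238165356684879/130523223017928757510790751383928000)*((u*(1-u)*(u-x^2))*((1+2*y)*(1+2*y))) + (224248650566671573733824236532931/226602817739459648456233943374875)*(((u-2*(1)*x+(1)^2)*u*(1-x))*((y-(1/2))^2*v)) + (8109869604585595818483212393298301/6118276078965410508318316471121625)*(((u-2*(1/4)*x+(1/4)^2)*(1-x))*((v-2*(1)*y+(1)^2)*v*(1+2*y))) + (11/720)*((u*u*(1+2*x)*(1+2*x))*((1-3*v+2*v*y)*(1-3*v+2*v*y))) + (89721329343661548886061372072547043/652616115089643787553953756919640000)*(((u-2*(1)*x+(1)^2)*u*(1+2*x))*((1-y)*(1-3*v+2*v*y))) + (33030304326549897904066133136538463/32630805754482189377697687845982000)*((u*(1-u)*(1+2*x)*(1+2*x))*((1-y)*(1-y)*(v-1/2))) + (55253133525343981325208350722967513/234941801432271763519423352491070400)*(((1-u)*(1-u)*(1+2*x)*(1+2*x))*((1+2*y)*(1-3*v+2*v*y)*(v-1/2)))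 + (47274754889118641922041676188854/226602817739459648456233943374875)*(((u-2*(1)*x+(1)^2)*u*(1-x))*((1+2*y)*(1+2*y)*(v-1/2)*(v-1/2))) + (206616462917758766107176804176327/13052322301792875751079075138392800)*((u*(1+2*x)*(1+2*x))*((v-2*(3/4)*y+(3/4)^2)*(1+2*y))) + (16180295873357063439905997235993547/783139338107572545064744508303568000)*((u*u*(1+2*x)*(1+2*x))*((1-v)*(1+2*y)*(1+2*y)*(v-1/2))) + (124437927988714633690543548759613/4350774100597625250359691712797600)*(((1-3*u+2*u*x)*(1-3*u+2*u*x))*((1-y)*(1+2*y)*(v-1/2)*(v-1/2))) + (3886953024022332219051203291428727/130523223017928757510790751383928000)*((u*u*(1+x-2*u))*((1+2*y)*(1+2*y)*(v-1/2))) + (8357208806459604135676077096170827/27192338128735157814748073204985000)*(((u-2*(1)*x+(1)^2)*(1+2*x))*((1-y)*(1-3*v+2*v*y))) + (247943354224118992350209125108426039/783139338107572545064744508303568000)*(((u-2*(1)*x+(1)^2)*u*(1+2*x))*((1+2*y)*(1-3*v+2*v*y)*(v-1/2))) + (1/108)*(((1+2*x)*(1-3*u+2*u*x))*((1-v)*(1-y)*(1-3*v+2*v*y)))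 + (11/270)*(((1+2*x)*(1+2*x))*((1-y)*(1-3*v+2*v*y)*(v-1/2))) + (60924456991258695981348100131203233/65261611508964378755395375691964000)*(((1-u)*(1-u)*(1+2*x)*(1+2*x))*((1-y)*(1+2*y)*(v-1/2)*(v-1/2))) + (393023796086398579888467081716119/906411270957838593824935773499500)*(((1-x)*(1-3*u+2*u*x))*((1-y)*(1-3*v+2*v*y))) + (511656064468347696431842725053611/32630805754482189377697687845982000)*((u*(1+x-2*u)*(1+x-2*u))*((1+2*y)*(1+2*y)*(v-1/2)*(v-1/2))) + (3487373379858257457832495102243/25178090859939960939581549263875)*(((1-3*u+2*u*x)*(1-3*u+2*u*x))*((y-(3/4))^2*v*(1-v))) + (15313686563989932234094126945363043/21753870502988126251798458563988000)*(((1-u)*(1-u)*(1+2*x)*(1+2*x))*((1-y)*(1-3*v+2*v*y)*(v-1/2))) + (20550162898054134245302080951884033/261046446035857515021581502767856000)*((u*(1-x)*(1-3*u+2*u*x))*((1-3*v+2*v*y)*(1-3*v+2*v*y))) + (6336147012147132748420046580594673/21753870502988126251798458563988000)*(((1-u)*(u-x^2))*((1-v)*(1+2*y)*(1+2*y)*(v-1/2)))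 + (4634505410440751957594505150645779/16315402877241094688848843922991000)*(((1-x)*(1-x)*(1/2-u)*(1/2-u))*((1+2*y)*(1-3*v+2*v*y))) + (3612546592745549475051643212290629/16315402877241094688848843922991000)*(((u-2*(1/4)*x+(1/4)^2)*u*(1+2*x))*((1-v)*(1-v)*(1+2*y)*(1+2*y))) + (17/180)*(((u-2*(1)*x+(1)^2)*(1+2*x))*((1-y)*(1-3*v+2*v*y)*(v-1/2))) + (7802057031511036630246214375295259/391569669053786272532372254151784000)*(((u-2*(1)*x+(1)^2)*u*(1+2*x))*((1+2*y)*(1+2*y)*(v-1/2)*(v-1/2))) + (22083/219200) + (53742864911987869822710521908538801/130523223017928757510790751383928000)*((u*(1-x)*(1-3*u+2*u*x))*((1+2*y)*(1-3*v+2*v*y)*(v-1/2))) + (113228350869816427336475109025261/5438467625747031562949614640997000)*(((u-2*(-1/2)*x+(-1/2)^2)*(1+2*x))*((1+2*y)*(1+2*y)*(v-1/2)*(v-1/2))) + (375195112964419991539855189871/58010321341301670004795889503968)*(((1-u)*(1+2*x)*(1-3*u+2*u*x))*((1-v)*(1-y)*(1-3*v+2*v*y))) + (89726447498157204968567961182397037/195784834526893136266186127075892000)*((u*(1+2*x)*(1+2*x)*(1/2-u))*((1-y)*(1+2*y)*(v-1/2)))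 + (1948012797934369919919338154690409/32630805754482189377697687845982000)*(((1+2*x)*(1+2*x)*(1/2-u))*((1+2*y)*(1+2*y)*(v-1/2)*(v-1/2))) + (123911942903543094855091150911004/1223655215793082101663663294224325)*(((u-2*(1/4)*x+(1/4)^2)*(1+2*x))*((1+2*y)*(1-3*v+2*v*y))) + (30558234106240924812284736528136483/10876935251494063125899229281994000)*(((u-2*(1)*x+(1)^2)*u*(1+2*x))*((1-y)*(1-y)*(v-1/2))) + (469076503711330374358269102553541/181282254191567718764987154699900)*(((1-u)*(1-x)*(1-3*u+2*u*x))*((y-(1/2))^2*v*(v-1/2))) + (3191659704562891033732230110628511/6118276078965410508318316471121625)*(((u-2*(1/4)*x+(1/4)^2)*(1-x))*((1-v)*(1+2*y)*(1+2*y)*(v-1/2))) + (58938011366735205632700052280862973/783139338107572545064744508303568000)*((u*(1+2*x)*(1-3*u+2*u*x))*((1-v)*(1+2*y)*(1+2*y)*(v-1/2))) + (3371089604243810197762817111717209/48946208631723284066546531768973000)*((u*(1+2*x)*(1-3*u+2*u*x))*((v-2*(3/4)*y+(3/4)^2)*(1+2*y))) + (305182597224292079186615891647528/75534272579819882818744647791625)*(((1-x)*(1-3*u+2*u*x))*((y-(3/4))^2*v*(1-v)))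 + (1232984446145614967608657166871353/2719233812873515781474807320498500)*(((1-u)*(1-u)*(u-x^2))*((v-2*(3/4)*y+(3/4)^2)*(1+2*y))) + (268490131806488880546622103681079599/391569669053786272532372254151784000)*((u*(1-x)*(1-3*u+2*u*x))*((1-y)*(1+2*y)*(v-1/2))) + (5583105243314438852163105466938259/65261611508964378755395375691964000)*((u*(1-u)*(u-x^2))*((v-2*(1)*y+(1)^2)*(1+2*y))) + (61018889575066878273156971017178519/391569669053786272532372254151784000)*((u*(1-x)*(1-3*u+2*u*x))*((1-y)*(1-3*v+2*v*y))) + (1272713945553550215868442493704921/12236552157930821016636632942243250)*(((u-2*(1)*x+(1)^2)*(1-x))*((1+2*y)*(1-3*v+2*v*y)*(v-1/2))) + (148496326434571886262190472099003/8157701438620547344424421961495500)*((u*u*(u-x^2))*(v*v*(1+2*y)*(1+2*y))) + (11607602913236711961650368800364393/16315402877241094688848843922991000)*((u*u*(1-x)*(1+2*x))*((v-2*(1)*y+(1)^2)*(1-y))) + (96091044078785342708071709154454643/97892417263446568133093063537946000)*((u*(1+2*x)*(1-3*u+2*u*x))*((1-v)*(1-y)*(1+2*y)*(v-1/2)))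 + (12250814310348304310794401501878557/16315402877241094688848843922991000)*((u*(1-x)*(1-3*u+2*u*x))*((v-2*(1)*y+(1)^2)*(v-1/2))) + (1483596963209211582057229366427423/2175387050298812625179845856398800)*(((1-x)*(1-3*u+2*u*x))*((1-v)*(1-y)*(1-3*v+2*v*y))) + (829435291433210665800468450340853/4078850719310273672212210980747750)*(((u-2*(-1/4)*x+(-1/4)^2)*u*u)*((1+2*y)*(1-3*v+2*v*y))) + (36462457974767492340957511677769/107426521002410500008881276859200)*(((u-2*(1)*x+(1)^2)*u*(1+2*x))*((1-y)*(1+2*y)*(v-1/2))) + (40065388024689852853154639156820079/2349418014322717635194233524910704000)*(((1+2*x)*(1+2*x))*((1+2*y)*(1-3*v+2*v*y)*(v-1/2))) + (2785623376296191797815109449730432/6118276078965410508318316471121625)*(((u-2*(1/4)*x+(1/4)^2)*(1-x))*((v-2*(1)*y+(1)^2)*(1-y))) + (5717491182746688308834359250331757/16315402877241094688848843922991000)*(((u-2*(1/2)*x+(1/2)^2)*(1/2-u))*((1+2*y)*(1-3*v+2*v*y))) + (897996732569089548364732667372527/32630805754482189377697687845982000)*((u*(1+2*x)*(1+2*x)*(1/2-u))*((v-2*(3/4)*y+(3/4)^2)*(1+2*y)))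 + (2827672937197455665307922530414419/5438467625747031562949614640997000)*(((u-x^2))*((v-2*(1)*y+(1)^2)*(1-y))) + (7039622182918898047466140597281893/52209289207171503004316300553571200)*(((1-u)*(1+2*x)*(1-3*u+2*u*x))*((1+2*y)*(1-3*v+2*v*y)*(v-1/2))) + (2048986325425921015667940215636303/12236552157930821016636632942243250)*(((u-2*(1)*x+(1)^2)*(1-x))*((1-y)*(1-3*v+2*v*y))) + (2/135)*(((u-2*(1)*x+(1)^2)*(1-x))*(v*(1-y)*(1-3*v+2*v*y))) + (943979389914648083895358740382889/2719233812873515781474807320498500)*(((u-2*(-1/2)*x+(-1/2)^2)*u*(1-x))*((v-2*(1)*y+(1)^2)*(1-y))) + (82876345711802776679851735340387549/391569669053786272532372254151784000)*((u*(1-x)*(1-3*u+2*u*x))*((1+2*y)*(1+2*y)*(v-1/2)*(v-1/2))) + (22168114289325679562211998971876/25178090859939960939581549263875)*(((u-2*(1/4)*x+(1/4)^2)*(1/2-u))*((1-v)*(1-v)*(1-y)*(1+2*y))) + (2041423391707755948283797716424631/783139338107572545064744508303568000)*((u*(1-x)*(1-3*u+2*u*x))*((1-v)*(1-v)*(1+2*y)*(1+2*y)))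 + (961043399111768065983712839697093/21753870502988126251798458563988000)*(((u-2*(1/2)*x+(1/2)^2)*u*(1+2*x))*((1-v)*(1-v)*(1+2*y)*(1+2*y))) + (4234092576947755239845266982433941/78313933810757254506474450830356800)*((u*(1+2*x)*(1+2*x))*((1-y)*(1+2*y)*(v-1/2))) + (88093084572719636052648541705547/14502580335325417501198972375992000)*((u*u*(1+2*x)*(1+2*x))*((1+2*y)*(1+2*y)*(v-1/2))) + (56470968519364424246644648638486343/163154028772410946888488439229910000)*((u*(1+2*x)*(1+2*x)*(1/2-u))*((1-y)*(1-3*v+2*v*y))) + (10468318444684802803188861564474617/234941801432271763519423352491070400)*((u*(1+2*x)*(1+2*x)*(1/2-u))*((1+2*y)*(1-3*v+2*v*y)*(v-1/2))) + (29056249195667361839286745211090137/32630805754482189377697687845982000)*(((1-u)*(1-u)*(u-x^2))*((1-y)*(1+2*y)*(v-1/2))) + (10761687863568991213625941987239607/783139338107572545064744508303568000)*((u*(1+2*x)*(1+2*x))*((1-v)*(1+2*y)*(1+2*y)*(v-1/2))) + (14306562929592333796510864974808043/8157701438620547344424421961495500)*(((1-u)*(1-u)*(1+2*x)*(1+2*x))*((1-y)*(1-y)*(v-1/2)*(v-1/2)))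 + (103883088251875830436618869729956/75534272579819882818744647791625)*(((u-2*(1/4)*x+(1/4)^2)*(1/2-u))*((v-2*(1)*y+(1)^2)*(1-y))) + (5442193717886867959395477996766357/65261611508964378755395375691964000)*(((u-2*(1)*x+(1)^2)*u*(1+2*x))*((v-2*(1)*y+(1)^2)*v*(1+2*y))) + (54576735216224897678163759307028/679808453218378945368701830124625)*(((u-2*(1/4)*x+(1/4)^2)*(1-x))*((v-2*(3/4)*y+(3/4)^2)*(1+2*y))) + (13599934699607554523442548677278901/4078850719310273672212210980747750)*(((u-2*(1/4)*x+(1/4)^2)*(1/2-u))*((1+2*y)*(1-3*v+2*v*y))) + (4130934830593371795624047969426653/65261611508964378755395375691964000)*(((u-x^2))*((1+2*y)*(1+2*y)*(v-1/2))) + (2547693844734627669758293027443761/130523223017928757510790751383928000)*((u*u*(u-x^2))*((1+2*y)*(1+2*y))) + (103289365988655964317304750170689/1631540287724109468884884392299100)*((u*u*(1+2*x)*(1+2*x))*((v-2*(1)*y+(1)^2)*(1-y))) + (8098307180394084761319024790577581/217538705029881262517984585639880000)*(((1-u)*(1+2*x)*(1+2*x))*((1-y)*(1-3*v+2*v*y)))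 + (123335519571289908438375271677629/553064504313257447079621827898000)*((u*(1-x)*(1-3*u+2*u*x))*((v-2*(3/4)*y+(3/4)^2)*(1+2*y))) + (110025398483819930449005532858769/679808453218378945368701830124625)*((u*u*(1+x-2*u))*((v-2*(1)*y+(1)^2)*v*(1+2*y))) + (24519815782751697320519683818863603/48946208631723284066546531768973000)*((u*(1+2*x)*(1-3*u+2*u*x))*((v-2*(3/4)*y+(3/4)^2)*v*(1+2*y))) + (23148213485839883346824016314626531/81577014386205473444244219614955000)*(((1+2*x)*(1-3*u+2*u*x)*(1/2-u))*((1-y)*(1-3*v+2*v*y))) + (110025398483819930449005532858769/5438467625747031562949614640997000)*(((1-u)*(1+x-2*u)*(1+x-2*u))*((1+2*y)*(1-3*v+2*v*y)*(v-1/2))) + (7023707808805829824311079592293231/40788507193102736722122109807477500)*((u*(1+2*x)*(1+2*x))*((1-y)*(1-3*v+2*v*y))) :=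
    (add_nonneg (add_nonneg (add_nonneg (add_nonneg (add_nonneg (add_nonneg (add_nonneg (add_nonneg (add_nonneg (add_nonneg (add_nonneg (add_nonneg (add_nonneg (add_nonneg (add_nonneg (add_nonneg (add_nonneg (add_nonneg (add_nonneg (add_nonneg (add_nonneg (add_nonneg (add_nonneg (add_nonneg (add_nonneg (add_nonneg (add_nonneg (add_nonneg (add_nonneg (add_nonneg (add_nonneg (add_nonneg (add_nonneg (add_nonneg (add_nonneg (add_nonneg (add_nonneg (add_nonneg (add_nonneg (add_nonneg (add_nonneg (add_nonneg (add_nonneg (add_nonneg (add_nonneg (add_nonneg (add_nonneg (add_nonneg (add_nonneg (add_nonneg (add_nonneg (add_nonneg (add_nonneg (add_nonneg (add_nonneg (add_nonneg (add_nonneg (add_nonneg (add_nonneg (add_nonneg (add_nonneg (add_nonneg (add_nonneg (add_nonneg (add_nonneg (add_nonneg (add_nonneg (add_nonneg (add_nonneg (add_nonneg (add_nonneg (add_nonneg (add_nonneg (add_nonneg (add_nonneg (add_nonneg (add_nonneg (add_nonneg (add_nonneg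 (add_nonneg (add_nonneg (add_nonneg (add_nonneg (add_nonneg (add_nonneg (add_nonneg (mul_nonneg (by norm_num) (mul_nonneg (mul_nonneg hka hbh) (mul_nonneg (mul_nonneg hmu2 hbh2) hlb2))) (mul_nonneg (by norm_num) (mul_nonneg (mul_nonneg (mul_nonneg hu het) hom) (mul_nonneg hmu2 hmu2)))) (mul_nonneg (by norm_num) (mul_nonneg (mul_nonneg (mul_nonneg (tan_nn hom (1)) hu) hka) (mul_nonneg (sq_nonneg (y-(1/2))) hu2)))) (mul_nonneg (by norm_num) (mul_nonneg (mul_nonneg (tan_nn hom (1/4)) hka) (mul_nonneg (mul_nonneg (tan_nn hom2 (1)) hu2) hmu2)))) (mul_nonneg (by norm_num) (mul_nonneg (mul_nonneg (mul_nonneg (mul_nonneg hu hu) hmu) hmu) (mul_nonneg hbh2 hbh2)))) (mul_nonneg (by norm_num) (mul_nonneg (mul_nonneg (mul_nonneg (tan_nn hom (1)) hu) hmu) (mul_nonneg hka2 hbh2)))) (mul_nonneg (by norm_num) (mul_nonneg (mul_nonneg (mul_nonneg (mul_nonneg hu het) hmu) hmu) (mul_nonneg (mul_nonneg hka2 hka2) hlb2)))) (mul_nonneg (by norm_num) (mul_nonneg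 (mul_nonneg (mul_nonneg (mul_nonneg het het) hmu) hmu) (mul_nonneg (mul_nonneg hmu2 hbh2) hlb2)))) (mul_nonneg (by norm_num) (mul_nonneg (mul_nonneg (mul_nonneg (tan_nn hom (1)) hu) hka) (mul_nonneg (mul_nonneg (mul_nonneg hmu2 hmu2) hlb2) hlb2)))) (mul_nonneg (by norm_num) (mul_nonneg (mul_nonneg (mul_nonneg hu hmu) hmu) (mul_nonneg (tan_nn hom2 (3/4)) hmu2)))) (mul_nonneg (by norm_num) (mul_nonneg (mul_nonneg (mul_nonneg (mul_nonneg hu hu) hmu) hmu) (mul_nonneg (mul_nonneg (mul_nonneg het2 hmu2) hmu2) hlb2)))) (mul_nonneg (by norm_num) (mul_nonneg (mul_nonneg hbh hbh) (mul_nonneg (mul_nonneg (mul_nonneg hka2 hmu2) hlb2) hlb2)))) (mul_nonneg (by norm_num) (mul_nonneg (mul_nonneg (mul_nonneg hu hu) hch) (mul_nonneg (mul_nonneg hmu2 hmu2) hlb2)))) (mul_nonneg (by norm_num) (mul_nonneg (mul_nonneg (tan_nn hom (1)) hmu) (mul_nonneg hka2 hbh2)))) (mul_nonneg (by norm_num) (mul_nonneg (mul_nonneg (mul_nonneg (tan_nn hom (1)) hu) hmu) (mul_nonneg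 (mul_nonneg hmu2 hbh2) hlb2)))) (mul_nonneg (by norm_num) (mul_nonneg (mul_nonneg hmu hbh) (mul_nonneg (mul_nonneg het2 hka2) hbh2)))) (mul_nonneg (by norm_num) (mul_nonneg (mul_nonneg hmu hmu) (mul_nonneg (mul_nonneg hka2 hbh2) hlb2)))) (mul_nonneg (by norm_num) (mul_nonneg (mul_nonneg (mul_nonneg (mul_nonneg het het) hmu) hmu) (mul_nonneg (mul_nonneg (mul_nonneg hka2 hmu2) hlb2) hlb2)))) (mul_nonneg (by norm_num) (mul_nonneg (mul_nonneg hka hbh) (mul_nonneg hka2 hbh2)))) (mul_nonneg (by norm_num) (mul_nonneg (mul_nonneg (mul_nonneg hu hch) hch) (mul_nonneg (mul_nonneg (mul_nonneg hmu2 hmu2) hlb2) hlb2)))) (mul_nonneg (by norm_num) (mul_nonneg (mul_nonneg hbh hbh) (mul_nonneg (mul_nonneg (sq_nonneg (y-(3/4))) hu2) het2)))) (mul_nonneg (by norm_num) (mul_nonneg (mul_nonneg (mul_nonneg (mul_nonneg het het) hmu) hmu) (mul_nonneg (mul_nonneg hka2 hbh2) hlb2)))) (mul_nonneg (by norm_num) (mul_nonneg (mul_nonneg (mul_nonneg hu hka) hbh) (mul_nonneg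 hbh2 hbh2)))) (mul_nonneg (by norm_num) (mul_nonneg (mul_nonneg het hom) (mul_nonneg (mul_nonneg (mul_nonneg het2 hmu2) hmu2) hlb2)))) (mul_nonneg (by norm_num) (mul_nonneg (mul_nonneg (mul_nonneg (mul_nonneg hka hka) hla) hla) (mul_nonneg hmu2 hbh2)))) (mul_nonneg (by norm_num) (mul_nonneg (mul_nonneg (mul_nonneg (tan_nn hom (1/4)) hu) hmu) (mul_nonneg (mul_nonneg (mul_nonneg het2 het2) hmu2) hmu2)))) (mul_nonneg (by norm_num) (mul_nonneg (mul_nonneg (tan_nn hom (1)) hmu) (mul_nonneg (mul_nonneg hka2 hbh2) hlb2)))) (mul_nonneg (by norm_num) (mul_nonneg (mul_nonneg (mul_nonneg (tan_nn hom (1)) hu) hmu) (mul_nonneg (mul_nonneg (mul_nonneg hmu2 hmu2) hlb2) hlb2)))) (by norm_num : (0:ℝ) ≤ (22083/219200))) (mul_nonneg (by norm_num) (mul_nonneg (mul_nonneg (mul_nonneg hu hka) hbh) (mul_nonneg (mul_nonneg hmu2 hbh2) hlb2)))) (mul_nonneg (by norm_num) (mul_nonneg (mul_nonneg (tan_nn hom (-1/2)) hmu) (mul_nonneg (mul_nonneg (mul_nonneg hmu2 hmu2)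 hlb2) hlb2)))) (mul_nonneg (by norm_num) (mul_nonneg (mul_nonneg (mul_nonneg het hmu) hbh) (mul_nonneg (mul_nonneg het2 hka2) hbh2)))) (mul_nonneg (by norm_num) (mul_nonneg (mul_nonneg (mul_nonneg (mul_nonneg hu hmu) hmu) hla) (mul_nonneg (mul_nonneg hka2 hmu2) hlb2)))) (mul_nonneg (by norm_num) (mul_nonneg (mul_nonneg (mul_nonneg hmu hmu) hla) (mul_nonneg (mul_nonneg (mul_nonneg hmu2 hmu2) hlb2) hlb2)))) (mul_nonneg (by norm_num) (mul_nonneg (mul_nonneg (tan_nn hom (1/4)) hmu) (mul_nonneg hmu2 hbh2)))) (mul_nonneg (by norm_num) (mul_nonneg (mul_nonneg (mul_nonneg (tan_nn hom (1)) hu) hmu) (mul_nonneg (mul_nonneg hka2 hka2) hlb2)))) (mul_nonneg (by norm_num) (mul_nonneg (mul_nonneg (mul_nonneg het hka) hbh) (mul_nonneg (mul_nonneg (sq_nonneg (y-(1/2))) hu2) hlb2)))) (mul_nonneg (by norm_num) (mul_nonneg (mul_nonneg (tan_nn hom (1/4)) hka) (mul_nonneg (mul_nonneg (mul_nonneg het2 hmu2) hmu2) hlb2)))) (mul_nonneg (by norm_num) (mul_nonneg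 (mul_nonneg (mul_nonneg hu hmu) hbh) (mul_nonneg (mul_nonneg (mul_nonneg het2 hmu2) hmu2) hlb2)))) (mul_nonneg (by norm_num) (mul_nonneg (mul_nonneg (mul_nonneg hu hmu) hbh) (mul_nonneg (tan_nn hom2 (3/4)) hmu2)))) (mul_nonneg (by norm_num) (mul_nonneg (mul_nonneg hka hbh) (mul_nonneg (mul_nonneg (sq_nonneg (y-(3/4))) hu2) het2)))) (mul_nonneg (by norm_num) (mul_nonneg (mul_nonneg (mul_nonneg het het) hom) (mul_nonneg (tan_nn hom2 (3/4)) hmu2)))) (mul_nonneg (by norm_num) (mul_nonneg (mul_nonneg (mul_nonneg hu hka) hbh) (mul_nonneg (mul_nonneg hka2 hmu2) hlb2)))) (mul_nonneg (by norm_num) (mul_nonneg (mul_nonneg (mul_nonneg hu het) hom) (mul_nonneg (tan_nn hom2 (1)) hmu2)))) (mul_nonneg (by norm_num) (mul_nonneg (mul_nonneg (mul_nonneg hu hka) hbh) (mul_nonneg hka2 hbh2)))) (mul_nonneg (by norm_num) (mul_nonneg (mul_nonneg (tan_nn hom (1)) hka) (mul_nonneg (mul_nonneg hmu2 hbh2) hlb2)))) (mul_nonneg (by norm_num) (mul_nonneg (mul_nonneg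 (mul_nonneg hu hu) hom) (mul_nonneg (mul_nonneg (mul_nonneg hu2 hu2) hmu2) hmu2)))) (mul_nonneg (by norm_num) (mul_nonneg (mul_nonneg (mul_nonneg (mul_nonneg hu hu) hka) hmu) (mul_nonneg (tan_nn hom2 (1)) hka2)))) (mul_nonneg (by norm_num) (mul_nonneg (mul_nonneg (mul_nonneg hu hmu) hbh) (mul_nonneg (mul_nonneg (mul_nonneg het2 hka2) hmu2) hlb2)))) (mul_nonneg (by norm_num) (mul_nonneg (mul_nonneg (mul_nonneg hu hka) hbh) (mul_nonneg (tan_nn hom2 (1)) hlb2)))) (mul_nonneg (by norm_num) (mul_nonneg (mul_nonneg hka hbh) (mul_nonneg (mul_nonneg het2 hka2) hbh2)))) (mul_nonneg (by norm_num) (mul_nonneg (mul_nonneg (mul_nonneg (tan_nn hom (-1/4)) hu) hu) (mul_nonneg hmu2 hbh2)))) (mul_nonneg (by norm_num) (mul_nonneg (mul_nonneg (mul_nonneg (tan_nn hom (1)) hu) hmu) (mul_nonneg (mul_nonneg hka2 hmu2) hlb2)))) (mul_nonneg (by norm_num) (mul_nonneg (mul_nonneg hmu hmu) (mul_nonneg (mul_nonneg hmu2 hbh2) hlb2)))) (mul_nonneg (by norm_num) (mul_nonneg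 (mul_nonneg (tan_nn hom (1/4)) hka) (mul_nonneg (tan_nn hom2 (1)) hka2)))) (mul_nonneg (by norm_num) (mul_nonneg (mul_nonneg (tan_nn hom (1/2)) hla) (mul_nonneg hmu2 hbh2)))) (mul_nonneg (by norm_num) (mul_nonneg (mul_nonneg (mul_nonneg (mul_nonneg hu hmu) hmu) hla) (mul_nonneg (tan_nn hom2 (3/4)) hmu2)))) (mul_nonneg (by norm_num) (mul_nonneg hom (mul_nonneg (tan_nn hom2 (1)) hka2)))) (mul_nonneg (by norm_num) (mul_nonneg (mul_nonneg (mul_nonneg het hmu) hbh) (mul_nonneg (mul_nonneg hmu2 hbh2) hlb2)))) (mul_nonneg (by norm_num) (mul_nonneg (mul_nonneg (tan_nn hom (1)) hka) (mul_nonneg hka2 hbh2)))) (mul_nonneg (by norm_num) (mul_nonneg (mul_nonneg (tan_nn hom (1)) hka) (mul_nonneg (mul_nonneg hu2 hka2) hbh2)))) (mul_nonneg (by norm_num) (mul_nonneg (mul_nonneg (mul_nonneg (tan_nn hom (-1/2)) hu) hka) (mul_nonneg (tan_nn hom2 (1)) hka2)))) (mul_nonneg (by norm_num) (mul_nonneg (mul_nonneg (mul_nonneg hu hka) hbh) (mul_nonneg (mul_nonneg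 (mul_nonneg hmu2 hmu2) hlb2) hlb2)))) (mul_nonneg (by norm_num) (mul_nonneg (mul_nonneg (tan_nn hom (1/4)) hla) (mul_nonneg (mul_nonneg (mul_nonneg het2 het2) hka2) hmu2)))) (mul_nonneg (by norm_num) (mul_nonneg (mul_nonneg (mul_nonneg hu hka) hbh) (mul_nonneg (mul_nonneg (mul_nonneg het2 het2) hmu2) hmu2)))) (mul_nonneg (by norm_num) (mul_nonneg (mul_nonneg (mul_nonneg (tan_nn hom (1/2)) hu) hmu) (mul_nonneg (mul_nonneg (mul_nonneg het2 het2) hmu2) hmu2)))) (mul_nonneg (by norm_num) (mul_nonneg (mul_nonneg (mul_nonneg hu hmu) hmu) (mul_nonneg (mul_nonneg hka2 hmu2) hlb2)))) (mul_nonneg (by norm_num) (mul_nonneg (mul_nonneg (mul_nonneg (mul_nonneg hu hu) hmu) hmu) (mul_nonneg (mul_nonneg hmu2 hmu2) hlb2)))) (mul_nonneg (by norm_num) (mul_nonneg (mul_nonneg (mul_nonneg (mul_nonneg hu hmu) hmu) hla) (mul_nonneg hka2 hbh2)))) (mul_nonneg (by norm_num) (mul_nonneg (mul_nonneg (mul_nonneg (mul_nonneg hu hmu) hmu) hla) (mul_nonneg (mul_nonneg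 hmu2 hbh2) hlb2)))) (mul_nonneg (by norm_num) (mul_nonneg (mul_nonneg (mul_nonneg het het) hom) (mul_nonneg (mul_nonneg hka2 hmu2) hlb2)))) (mul_nonneg (by norm_num) (mul_nonneg (mul_nonneg (mul_nonneg hu hmu) hmu) (mul_nonneg (mul_nonneg (mul_nonneg het2 hmu2) hmu2) hlb2)))) (mul_nonneg (by norm_num) (mul_nonneg (mul_nonneg (mul_nonneg (mul_nonneg het het) hmu) hmu) (mul_nonneg (mul_nonneg (mul_nonneg hka2 hka2) hlb2) hlb2)))) (mul_nonneg (by norm_num) (mul_nonneg (mul_nonneg (tan_nn hom (1/4)) hla) (mul_nonneg (tan_nn hom2 (1)) hka2)))) (mul_nonneg (by norm_num) (mul_nonneg (mul_nonneg (mul_nonneg (tan_nn hom (1)) hu) hmu) (mul_nonneg (mul_nonneg (tan_nn hom2 (1)) hu2) hmu2)))) (mul_nonneg (by norm_num) (mul_nonneg (mul_nonneg (tan_nn hom (1/4)) hka) (mul_nonneg (tan_nn hom2 (3/4)) hmu2)))) (mul_nonneg (by norm_num) (mul_nonneg (mul_nonneg (tan_nn hom (1/4)) hla) (mul_nonneg hmu2 hbh2)))) (mul_nonneg (by norm_num) (mul_nonneg hom (mul_nonneg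 (mul_nonneg hmu2 hmu2) hlb2)))) (mul_nonneg (by norm_num) (mul_nonneg (mul_nonneg (mul_nonneg hu hu) hom) (mul_nonneg hmu2 hmu2)))) (mul_nonneg (by norm_num) (mul_nonneg (mul_nonneg (mul_nonneg (mul_nonneg hu hu) hmu) hmu) (mul_nonneg (tan_nn hom2 (1)) hka2)))) (mul_nonneg (by norm_num) (mul_nonneg (mul_nonneg (mul_nonneg het hmu) hmu) (mul_nonneg hka2 hbh2)))) (mul_nonneg (by norm_num) (mul_nonneg (mul_nonneg (mul_nonneg hu hka) hbh) (mul_nonneg (tan_nn hom2 (3/4)) hmu2)))) (mul_nonneg (by norm_num) (mul_nonneg (mul_nonneg (mul_nonneg hu hu) hch) (mul_nonneg (mul_nonneg (tan_nn hom2 (1)) hu2) hmu2)))) (mul_nonneg (by norm_num) (mul_nonneg (mul_nonneg (mul_nonneg hu hmu) hbh) (mul_nonneg (mul_nonneg (tan_nn hom2 (3/4)) hu2) hmu2)))) (mul_nonneg (by norm_num) (mul_nonneg (mul_nonneg (mul_nonneg hmu hbh) hla) (mul_nonneg hka2 hbh2)))) (mul_nonneg (by norm_num) (mul_nonneg (mul_nonneg (mul_nonneg het hch) hch) (mul_nonneg (mul_nonneg hmu2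 hbh2) hlb2)))) (mul_nonneg (by norm_num) (mul_nonneg (mul_nonneg (mul_nonneg hu hmu) hmu) (mul_nonneg hka2 hbh2))))
  positivity

end Vale.Agent.Lib.P154.GW
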