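import Vale.Agent.Lib.P154.GW.Defs2

/-!
The polynomial inequality behind the closure of the class, one region.
-/

namespace Vale.Agent.Lib.P154.GW

set_option maxRecDepth 100000 in
set_option maxHeartbeats 4000000 in
theorem cert2ll {u x v y : ℝ} (h1 : Atoms u x) (h2 : Atoms v y) (hla : 0 ≤ 1 / 2 - u) (hla2 : 0 ≤ 1 / 2 - v) :
    0 ≤ P2g (2 / 3 * u) (2 / 9 * u * x) (2 / 3 * v) (2 / 9 * v * y) := by
  obtain ⟨hu, het, hka, hmu, hom, hbh, hch⟩ := h1
  obtain ⟨hu2, het2, hka2, hmu2, hom2, hbh2, hch2⟩ := h2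
  have key : P2g (2 / 3 * u) (2 / 9 * u * x) (2 / 3 * v) (2 / 9 * v * y)
      = 4 / 9 * u * v * ((215326021702678855160974806021052046242824863497216/7283546058089140054393895141010019273081338044625)*(((u-2*(1/2)*x+(1/2)^2)*(1/2-u))*((y-(3/4))^2*v*v)) + (2858032711969647733534436756813061653859044045584/269760965114412594607181301518889602706716223875)*(((x-(1/2))^2*u*(1/2-u))*((y-(0))^2*v*v)) + (86644152279998702478259402729/1577257465949213945546758802000) + (905298969434825003624608482159718324772775262672/809282895343237783821543904556668808120148671625)*((u*u*(u-x^2))*((v-2*(1/4)*y+(1/4)^2)*(1+2*y))) + (34497519611442910686471928098667900226493179684428/7283546058089140054393895141010019273081338044625)*((u*u*(u-x^2))*((v-2*(1/2)*y+(1/2)^2)*(1/2-v))) + (1933150002357145107536797729902077249911531003328/2427848686029713351464631713670006424360446014875)*((u*(1/2-u)*(1/2-u))*((v-2*(1/2)*y+(1/2)^2)*(1+2*y))) + (8443450992119713161996907813063091541228302150518/65551914522802260489545056269090173457732042401625)*((u*(u-x^2)*(1/2-u))*((1-y)*(1-3*v+2*v*y)*(1/2-v)))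 + (1364422422170363799504925250552/887207324596432844370051826125)*(((1-x)*(1-x)*(1/2-u)*(1/2-u))*((1-y)*(1-y)*(1/2-v)*(1/2-v))) + (32309688027819401649070943294722892902478231965288/7283546058089140054393895141010019273081338044625)*(((1-x)*(1+2*x)*(1/2-u)*(1/2-u))*((1-y)*(1-y)*(1/2-v)*(1/2-v))) + (57886099324149509937813181184/295735774865477614790017275375)*(((u-2*(1/4)*x+(1/4)^2)*(1/2-u))*(v*v*(1-y)*(1+2*y))) + (208304438192383138355058058252432249368296821469/212142118196771069545453256534272406012077807125)*((u*(1+2*x)*(1-3*u+2*u*x))*((v-2*(1/4)*y+(1/4)^2)*v*(1+2*y))) + (31921842781252308806841708610834377369051358765982/7283546058089140054393895141010019273081338044625)*(((1-u)*(u-x^2)*(1/2-u))*(v*(1-y)*(1-3*v+2*v*y))) + (14879603345297911144470931983493311874755371474438/7283546058089140054393895141010019273081338044625)*(((1+2*x)*(1+2*x)*(1/2-u)*(1/2-u))*((v-2*(1/2)*y+(1/2)^2)*(1/2-v))) + (2627022967793618538630674848256/98578591621825871596672425125)*(((x-(1/2))^2*u*(1/2-u))*((y-(1/2))^2*v*(1/2-v)))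 + (449373921152375562922032306424561084167903711992/485569737205942670292926342734001284872089202975)*(((u-2*(1/2)*x+(1/2)^2)*(1+2*x))*((v-2*(3/4)*y+(3/4)^2)*v*(1/2-v))) + (3918930708535514943596273463007004915071145757412/7283546058089140054393895141010019273081338044625)*((u*(1-x)*(1-3*u+2*u*x))*((y-(0))^2*v*v)) + (3385891765242243693198200987754569205568041718528/7283546058089140054393895141010019273081338044625)*(((x-(1/4))^2*u*u)*(v*(1-y)*(1-3*v+2*v*y))) + (8505347524148092403198398381786428803079513883402/2427848686029713351464631713670006424360446014875)*(((u-2*(1/2)*x+(1/2)^2)*u*(1+2*x))*((y-(1/2))^2*v)) + (75418613931776098421564562638795935225116219871976/21850638174267420163181685423030057819244014133875)*((u*u*(u-x^2))*(v*v*(1-y)*(1+2*y))) + (8216667547781936606001736164625724653133598784/2386743656391853649719463181106505496367451025)*(((x-(1/4))^2*u*u)*((v-2*(1/4)*y+(1/4)^2)*v*(1+2*y))) + (665279865737802293656431876235464630200505405503/2427848686029713351464631713670006424360446014875)*(((u-2*(1/2)*x+(1/2)^2)*(1/2-u))*((1-3*v+2*v*y)*(1-3*v+2*v*y)))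 + (1445108966874935314520656270724601743776679296728/269760965114412594607181301518889602706716223875)*((u*u*(1+x-2*u))*((v-2*(1/4)*y+(1/4)^2)*(1/2-v))) + (1117851496310140873165172731984/295735774865477614790017275375)*(((u-2*(3/4)*x+(3/4)^2)*(1/2-u))*((1/2-v)*(1/2-v)*(1/2-v))) + (192495545360368168842980953555204452014704297162384/65551914522802260489545056269090173457732042401625)*(((u-2*(1/4)*x+(1/4)^2)*u*(1+2*x))*(v*(v-y^2)*(1/2-v))) + (19247526058286543436321581075568953967565917187448/7283546058089140054393895141010019273081338044625)*(((x-(0))^2*u*(1/2-u))*((v-2*(1/2)*y+(1/2)^2)*(1/2-v))) + (1522653650266286457708611414518176698247093464734/7283546058089140054393895141010019273081338044625)*(((u-2*(1/2)*x+(1/2)^2)*u*(1+2*x))*((1+2*y)*(1+2*y)*(1/2-v)*(1/2-v))) + (24566630489300449672373627412867263052517045742384/2427848686029713351464631713670006424360446014875)*(((x-(1/2))^2*u*u)*((1-y)*(1-y)*(1/2-v)*(1/2-v))) + (1755657909832701013133426344850745984469274158856/7283546058089140054393895141010019273081338044625)*(((1+2*x)*(1+2*x)*(1/2-u)*(1/2-u))*((v-2*(1/2)*y+(1/2)^2)*v*(1+2*y)))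 + (207182297473046439079224362588635935465129997285712/7283546058089140054393895141010019273081338044625)*(((x-(3/4))^2*u*u)*((v-2*(1/2)*y+(1/2)^2)*(1/2-v))) + (2121732087428130738312218177784/98578591621825871596672425125)*(((u-x^2)*(1/2-u)*(1/2-u))*((v-y^2)*(1/2-v)*(1/2-v))) + (1804013060284133954754683231294351245947007621324/2427848686029713351464631713670006424360446014875)*(((u-2*(1/2)*x+(1/2)^2)*(1+2*x))*(v*(1/2-v)*(1/2-v))) + (73536298841283504454081788937124363009067232620472/21850638174267420163181685423030057819244014133875)*((u*(1-u)*(u-x^2))*(v*v*(v-y^2))) + (73787056861084176311545282846182514645572878287168/21850638174267420163181685423030057819244014133875)*(((u-2*(1/4)*x+(1/4)^2)*u*(1+2*x))*((y-(1/4))^2*v*v)) + (494237790212040267387835240734852822449627400456/269760965114412594607181301518889602706716223875)*((u*(1-x)*(1-3*u+2*u*x))*((v-2*(3/4)*y+(3/4)^2)*(1/2-v))) + (807213090205622498195405759660273860183626898784/809282895343237783821543904556668808120148671625)*(((u-2*(1/4)*x+(1/4)^2)*(1+2*x))*((v-2*(1/4)*y+(1/4)^2)*(1/2-v)))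 + (1694328998044632701660821157467101160044901891146176/65551914522802260489545056269090173457732042401625)*(((x-(1/4))^2*u*(1/2-u))*(v*(v-y^2)*(1/2-v))) + (127033113637003518533763629112307662249687523701256/65551914522802260489545056269090173457732042401625)*((u*(u-x^2))*(v*v*(1-y)*(1+2*y))) + (15076735835074394666443499569273461375852476529844/2427848686029713351464631713670006424360446014875)*(((u-2*(1/2)*x+(1/2)^2)*(1/2-u))*(v*(1+y-2*v)*(1/2-v))) + (638125356464502595208552209408/98578591621825871596672425125)*(((1/2-u)*(1/2-u)*(1/2-u))*((1/2-v)*(1/2-v)*(1/2-v))) + (3741465473832618898522327257471682792483209001972/2622076580912090419581802250763606938309281696065)*((u*u*(u-x^2))*(v*v*(1+y-2*v))) + (40403395814962035779368980453700416919972062157672/2427848686029713351464631713670006424360446014875)*(((1/2-u)*(1/2-u)*(1/2-u))*((v-y^2)*(1/2-v)*(1/2-v))) + (31545524640810398699565988224856096824565109487442/7283546058089140054393895141010019273081338044625)*((u*(1-x)*(1-3*u+2*u*x))*((1-v)*(v-y^2)*(1/2-v)))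 + (410583723136541825322351316301438119841044505602096/65551914522802260489545056269090173457732042401625)*((u*u*(u-x^2))*(v*(v-y^2))) + (838900199821359871481127875672/887207324596432844370051826125)*(((x-(1/2))^2*u)*((1-y)*(1-y)*(1/2-v)*(1/2-v))) + (28677215407763391255200103680341598061282058394176/7283546058089140054393895141010019273081338044625)*(((1-x)*(1-x)*(1/2-u)*(1/2-u))*((y-(1/4))^2*v*v)) + (4479705771220784487476179311814365042050685792784/485569737205942670292926342734001284872089202975)*((u*(1-x)*(1-3*u+2*u*x))*((1-y)*(1-y)*(1/2-v)*(1/2-v))) + (2921707304519429029365547419800393773870574517064/636426354590313208636359769602817218036233421375)*((u*u*(1+x-2*u))*(v*(v-y^2)*(1/2-v))) + (35713211913341105904878161722672161914114101232/13123506410971423521430441695513548239786194675)*((u*(1+x-2*u)*(1/2-u))*((v-2*(1/2)*y+(1/2)^2)*(1/2-v))) + (13314047832211535205967208392091220858275982662624/7283546058089140054393895141010019273081338044625)*((u*(u-x^2)*(1/2-u))*((v-2*(1/2)*y+(1/2)^2)*(1+2*y)))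 + (14925421818863935005663229077247110691755644411156/7283546058089140054393895141010019273081338044625)*(((1-u)*(1-x)*(1-3*u+2*u*x))*((1-y)*(1-y)*(1/2-v)*(1/2-v))) + (12345397392038811947522812712200049564227030729856/7283546058089140054393895141010019273081338044625)*(((1/2-u)*(1/2-u)*(1/2-u))*(v*(1-y)*(1-3*v+2*v*y))) + (235292412497550499663326086225595431037918446776/7283546058089140054393895141010019273081338044625)*(((u-x^2)*(1/2-u)*(1/2-u))*((1-y)*(1-y)*(1/2-v)*(1/2-v))) + (1382544964442473618206367981727221461434637516888/269760965114412594607181301518889602706716223875)*(((u-2*(1/4)*x+(1/4)^2)*(1/2-u))*(v*v*(1+y-2*v))) + (26875541601149991739449774275737543825960482352/2158087720915300756857450412151116821653729791)*(((1-x)*(1-x)*(1/2-u)*(1/2-u))*((y-(1/2))^2*v*v)) + (29226776927324470873870484732180126087145377019584/7283546058089140054393895141010019273081338044625)*(((x-(1/4))^2*u*u)*((1-y)*(1-y)*(1/2-v)*(1/2-v))) + (127827179375903807291248617577187396020311375666616/7283546058089140054393895141010019273081338044625)*(((u-2*(1/2)*x+(1/2)^2)*(1/2-u))*((y-(0))^2*v*(1/2-v)))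 + (527474069559858342872874701495804038933900916321/7283546058089140054393895141010019273081338044625)*(((1+2*x)*(1+2*x)*(1/2-u)*(1/2-u))*((v-2*(1/2)*y+(1/2)^2)*(1+2*y))) + (43212956559327056784953091606835353938213370257038/7283546058089140054393895141010019273081338044625)*(((x-(1/2))^2*u*(1-u))*((v-2*(1/2)*y+(1/2)^2)*v*(1+2*y))) + (19113384040359190932755132907402899089275260043022/65551914522802260489545056269090173457732042401625)*((u*(1-x)*(1-3*u+2*u*x))*(v*(v-y^2)*(1/2-v))) + (21634075066770721306355415117513847462543113169213/21850638174267420163181685423030057819244014133875)*(((u-2*(1/4)*x+(1/4)^2)*u*(1+2*x))*(v*(1+2*y)*(1-3*v+2*v*y))) + (12098941640880340626619512974023447842104827371718/7283546058089140054393895141010019273081338044625)*(((u-2*(1/2)*x+(1/2)^2)*(1/2-u))*((1+2*y)*(1+2*y)*(1/2-v)*(1/2-v))) + (5517580892830514265007891275834817474660297325036/7283546058089140054393895141010019273081338044625)*(((x-(1/2))^2*u*u)*((v-2*(1/4)*y+(1/4)^2)*v*(1+2*y))) + (94348454174439104033192021373797610997846836760784/7283546058089140054393895141010019273081338044625)*(((x-(-1/4))^2*u*(1/2-u))*((v-2*(1/2)*y+(1/2)^2)*(1/2-v)))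 + (34269011789011778532073537826954096648949560814272/7283546058089140054393895141010019273081338044625)*(((x-(1/4))^2*u*(1/2-u))*((y-(0))^2*v*v)) + (1397275876626602348033378823962000141437839031832/809282895343237783821543904556668808120148671625)*(((u-2*(3/4)*x+(3/4)^2)*(1/2-u))*(v*(1-y)*(1-3*v+2*v*y))) + (24939992372719556454492592973712003005644504538368/7283546058089140054393895141010019273081338044625)*(((u-2*(1/2)*x+(1/2)^2)*u*(1+2*x))*((y-(1/2))^2*v*(1/2-v))) + (12345068757060295482802873220946227106108027459232/7283546058089140054393895141010019273081338044625)*(((u-2*(1/2)*x+(1/2)^2)*(1+2*x))*(v*(v-y^2)*(1/2-v))) + (14482135016356212700691722495432674118850782358744/7283546058089140054393895141010019273081338044625)*(((1/2-u)*(1/2-u)*(1/2-u))*((1-y)*(1-y)*(1/2-v)*(1/2-v))) + (5779558666315650832962398147611243426655210964304/1456709211617828010878779028202003854616267608925)*(((u-2*(1/2)*x+(1/2)^2)*(1/2-u))*(v*v*(v-y^2))) + (5668775210009627093883808488951544218943469699764/7283546058089140054393895141010019273081338044625)*(((1-x)*(1-3*u+2*u*x))*(v*(v-y^2)*(1/2-v)))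 + (12200863701832512662923432660790926387681107876856/7283546058089140054393895141010019273081338044625)*((u*(1-x)*(1-3*u+2*u*x))*((1/2-v)*(1/2-v)*(1/2-v))) + (8729642893947722257430758149286019889992677111544/7283546058089140054393895141010019273081338044625)*(((u-2*(1/2)*x+(1/2)^2)*(1+2*x))*((y-(1/4))^2*v*v)) + (988582183081311739589235826706287706208586507312/291341842323565602175755805640400770923253521785)*(((u-2*(1/2)*x+(1/2)^2)*(1/2-u))*((y-(-1/4))^2*v*(1/2-v))) + (51757300874327458628367841979528610584171023297696/7283546058089140054393895141010019273081338044625)*(((x-(1/2))^2*u*(1/2-u))*((v-2*(3/4)*y+(3/4)^2)*(1/2-v))) + (70865451082393977852087493922274516328762523527393/65551914522802260489545056269090173457732042401625)*((u*(u-x^2)*(1/2-u))*((1-y)*(1-3*v+2*v*y))) + (370595437889255564887001805364800861372605950712/485569737205942670292926342734001284872089202975)*(((1-3*u+2*u*x)*(1-3*u+2*u*x))*((v-2*(1/2)*y+(1/2)^2)*(1/2-v))) + (963325412424557957805703377416417353686899339984/809282895343237783821543904556668808120148671625)*(((u-2*(1/4)*x+(1/4)^2)*(1+2*x))*(v*v*(v-y^2)))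 + (11353656877134336691022237609484987541682877210332/2427848686029713351464631713670006424360446014875)*(((1-x)*(1-x)*(1/2-u)*(1/2-u))*((1-y)*(1+2*y)*(1/2-v)*(1/2-v))) + (2651824929165816341119767275635837082880861027812/7283546058089140054393895141010019273081338044625)*(((x-(0))^2*u*u)*(v*(1-y)*(1-3*v+2*v*y))) + (33618455233216079166074716194812063423986979340368/21850638174267420163181685423030057819244014133875)*(((u-2*(1/4)*x+(1/4)^2)*u*(1+2*x))*((v-2*(-1/2)*y+(-1/2)^2)*v*(1/2-v))) + (1304062672108984052865197867056353090088943059328/1456709211617828010878779028202003854616267608925)*(((1-x)*(1-x)*(1/2-u)*(1/2-u))*((1/2-v)*(1/2-v)*(1/2-v))) + (1269978118628957383525908294848/295735774865477614790017275375)*((u*(1-x)*(1-3*u+2*u*x))*(v*(1-y)*(1-3*v+2*v*y))) + (50255398207173110652972513775564061043122325632/196852596164571352821456625432703223596792920125)*((u*(1-x)*(1-3*u+2*u*x))*((y-(1/4))^2*v*v)) + (27648668871864332717196258062250401556760735601344/7283546058089140054393895141010019273081338044625)*(((x-(0))^2*u*u)*((y-(1/4))^2*v*(1/2-v)))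 + (6952024357454594975551017771786484343759288273152/485569737205942670292926342734001284872089202975)*(((u-x^2)*(1/2-u)*(1/2-u))*((1/2-v)*(1/2-v)*(1/2-v))) + (9136202069834620497073186947889214594377907489008/809282895343237783821543904556668808120148671625)*(((x-(0))^2*u*u)*((y-(1/2))^2*v*(1/2-v))) + (881919369333722690071315194089031126068692001632/809282895343237783821543904556668808120148671625)*(((u-2*(1/4)*x+(1/4)^2)*(1/2-u))*((v-2*(1/4)*y+(1/4)^2)*(1+2*y))) + (4798309632504151532052678640954410003951436367956/7283546058089140054393895141010019273081338044625)*(((u-2*(1/4)*x+(1/4)^2)*u*(1+2*x))*((y-(1/2))^2*v*v)) + (565971445372720467851735865218184057113333275549/7283546058089140054393895141010019273081338044625)*(((u-2*(1/2)*x+(1/2)^2)*(1+2*x))*((1+2*y)*(1+2*y)*(1/2-v)*(1/2-v))) + (241671104370941383702888787581738300881464473588304/65551914522802260489545056269090173457732042401625)*((u*(u-x^2)*(1/2-u))*((v-2*(1/4)*y+(1/4)^2)*v*(1+2*y))) + (7851915461089060008268683118514292413572032092324/7283546058089140054393895141010019273081338044625)*(((1-x)*(1-x)*(1/2-u)*(1/2-u))*((1+y-2*v)*(1/2-v)*(1/2-v)))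 + (9227920761832053427106045838556605651396543621904/7283546058089140054393895141010019273081338044625)*(((1-x)*(1-x)*(1/2-u)*(1/2-u))*((1-y)*(1-3*v+2*v*y))) + (62202750485180745721865825678307549343827643141468/7283546058089140054393895141010019273081338044625)*((u*u*(1-x)*(1+2*x))*(v*v*(v-y^2))) + (7335807947809065442854771072998350895710283520062/7283546058089140054393895141010019273081338044625)*(((x-(1/2))^2*u*u)*((v-2*(1/2)*y+(1/2)^2)*v*(1+2*y))) + (6347394014189362312200154395654402644405451459632/4370127634853484032636337084606011563848802826775)*(((u-2*(-1/2)*x+(-1/2)^2)*u*(1/2-u))*((v-2*(1/4)*y+(1/4)^2)*v*(1+2*y))) + (928177034886061262370995549655182580989255010488/2427848686029713351464631713670006424360446014875)*(((u-2*(3/4)*x+(3/4)^2)*u*(1/2-u))*((v-2*(1/2)*y+(1/2)^2)*(1+2*y))) + (65015365650894630067139093688646047979955845195796/7283546058089140054393895141010019273081338044625)*(((1-x)*(1-x)*(1/2-u)*(1/2-u))*(v*(1-y)*(1-3*v+2*v*y))) + (8594737994182527941287523072283944414773297526008/7283546058089140054393895141010019273081338044625)*(((x-(1/4))^2*u*u)*((v-2*(1/2)*y+(1/2)^2)*(1+2*y)))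 + (16942645994889563489256952229949920840126934117728/7283546058089140054393895141010019273081338044625)*(((u-2*(3/4)*x+(3/4)^2)*(1/2-u))*((y-(1/2))^2*v*(1/2-v))) + (1651257827636483950107631304379317639392408432986688/65551914522802260489545056269090173457732042401625)*((u*(u-x^2)*(1/2-u))*((y-(1/4))^2*v*(1/2-v)))) := by
    simp only [P2g, LBg, PP_Nq0, PP_Nq1, PP_Nq2, PP_Nq3, PP_J0, PP_J1, PP_J2]
    ring
  rw [key]
  have hs : 0 ≤ (215326021702678855160974806021052046242824863497216/7283546058089140054393895141010019273081338044625)*(((u-2*(1/2)*x+(1/2)^2)*(1/2-u))*((y-(3/4))^2*v*v)) + (2858032711969647733534436756813061653859044045584/269760965114412594607181301518889602706716223875)*(((x-(1/2))^2*u*(1/2-u))*((y-(0))^2*v*v)) + (86644152279998702478259402729/1577257465949213945546758802000) + (905298969434825003624608482159718324772775262672/809282895343237783821543904556668808120148671625)*((u*u*(u-x^2))*((v-2*(1/4)*y+(1/4)^2)*(1+2*y))) + (34497519611442910686471928098667900226493179684428/7283546058089140054393895141010019273081338044625)*((u*u*(u-x^2))*((v-2*(1/2)*y+(1/2)^2)*(1/2-v)))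 + (1933150002357145107536797729902077249911531003328/2427848686029713351464631713670006424360446014875)*((u*(1/2-u)*(1/2-u))*((v-2*(1/2)*y+(1/2)^2)*(1+2*y))) + (8443450992119713161996907813063091541228302150518/65551914522802260489545056269090173457732042401625)*((u*(u-x^2)*(1/2-u))*((1-y)*(1-3*v+2*v*y)*(1/2-v))) + (1364422422170363799504925250552/887207324596432844370051826125)*(((1-x)*(1-x)*(1/2-u)*(1/2-u))*((1-y)*(1-y)*(1/2-v)*(1/2-v))) + (32309688027819401649070943294722892902478231965288/7283546058089140054393895141010019273081338044625)*(((1-x)*(1+2*x)*(1/2-u)*(1/2-u))*((1-y)*(1-y)*(1/2-v)*(1/2-v))) + (57886099324149509937813181184/295735774865477614790017275375)*(((u-2*(1/4)*x+(1/4)^2)*(1/2-u))*(v*v*(1-y)*(1+2*y))) + (208304438192383138355058058252432249368296821469/212142118196771069545453256534272406012077807125)*((u*(1+2*x)*(1-3*u+2*u*x))*((v-2*(1/4)*y+(1/4)^2)*v*(1+2*y))) + (31921842781252308806841708610834377369051358765982/7283546058089140054393895141010019273081338044625)*(((1-u)*(u-x^2)*(1/2-u))*(v*(1-y)*(1-3*v+2*v*y)))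 + (14879603345297911144470931983493311874755371474438/7283546058089140054393895141010019273081338044625)*(((1+2*x)*(1+2*x)*(1/2-u)*(1/2-u))*((v-2*(1/2)*y+(1/2)^2)*(1/2-v))) + (2627022967793618538630674848256/98578591621825871596672425125)*(((x-(1/2))^2*u*(1/2-u))*((y-(1/2))^2*v*(1/2-v))) + (449373921152375562922032306424561084167903711992/485569737205942670292926342734001284872089202975)*(((u-2*(1/2)*x+(1/2)^2)*(1+2*x))*((v-2*(3/4)*y+(3/4)^2)*v*(1/2-v))) + (3918930708535514943596273463007004915071145757412/7283546058089140054393895141010019273081338044625)*((u*(1-x)*(1-3*u+2*u*x))*((y-(0))^2*v*v)) + (3385891765242243693198200987754569205568041718528/7283546058089140054393895141010019273081338044625)*(((x-(1/4))^2*u*u)*(v*(1-y)*(1-3*v+2*v*y))) + (8505347524148092403198398381786428803079513883402/2427848686029713351464631713670006424360446014875)*(((u-2*(1/2)*x+(1/2)^2)*u*(1+2*x))*((y-(1/2))^2*v)) + (75418613931776098421564562638795935225116219871976/21850638174267420163181685423030057819244014133875)*((u*u*(u-x^2))*(v*v*(1-y)*(1+2*y)))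 + (8216667547781936606001736164625724653133598784/2386743656391853649719463181106505496367451025)*(((x-(1/4))^2*u*u)*((v-2*(1/4)*y+(1/4)^2)*v*(1+2*y))) + (665279865737802293656431876235464630200505405503/2427848686029713351464631713670006424360446014875)*(((u-2*(1/2)*x+(1/2)^2)*(1/2-u))*((1-3*v+2*v*y)*(1-3*v+2*v*y))) + (1445108966874935314520656270724601743776679296728/269760965114412594607181301518889602706716223875)*((u*u*(1+x-2*u))*((v-2*(1/4)*y+(1/4)^2)*(1/2-v))) + (1117851496310140873165172731984/295735774865477614790017275375)*(((u-2*(3/4)*x+(3/4)^2)*(1/2-u))*((1/2-v)*(1/2-v)*(1/2-v))) + (192495545360368168842980953555204452014704297162384/65551914522802260489545056269090173457732042401625)*(((u-2*(1/4)*x+(1/4)^2)*u*(1+2*x))*(v*(v-y^2)*(1/2-v))) + (19247526058286543436321581075568953967565917187448/7283546058089140054393895141010019273081338044625)*(((x-(0))^2*u*(1/2-u))*((v-2*(1/2)*y+(1/2)^2)*(1/2-v))) + (1522653650266286457708611414518176698247093464734/7283546058089140054393895141010019273081338044625)*(((u-2*(1/2)*x+(1/2)^2)*u*(1+2*x))*((1+2*y)*(1+2*y)*(1/2-v)*(1/2-v)))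 + (24566630489300449672373627412867263052517045742384/2427848686029713351464631713670006424360446014875)*(((x-(1/2))^2*u*u)*((1-y)*(1-y)*(1/2-v)*(1/2-v))) + (1755657909832701013133426344850745984469274158856/7283546058089140054393895141010019273081338044625)*(((1+2*x)*(1+2*x)*(1/2-u)*(1/2-u))*((v-2*(1/2)*y+(1/2)^2)*v*(1+2*y))) + (207182297473046439079224362588635935465129997285712/7283546058089140054393895141010019273081338044625)*(((x-(3/4))^2*u*u)*((v-2*(1/2)*y+(1/2)^2)*(1/2-v))) + (2121732087428130738312218177784/98578591621825871596672425125)*(((u-x^2)*(1/2-u)*(1/2-u))*((v-y^2)*(1/2-v)*(1/2-v))) + (1804013060284133954754683231294351245947007621324/2427848686029713351464631713670006424360446014875)*(((u-2*(1/2)*x+(1/2)^2)*(1+2*x))*(v*(1/2-v)*(1/2-v))) + (73536298841283504454081788937124363009067232620472/21850638174267420163181685423030057819244014133875)*((u*(1-u)*(u-x^2))*(v*v*(v-y^2))) + (73787056861084176311545282846182514645572878287168/21850638174267420163181685423030057819244014133875)*(((u-2*(1/4)*x+(1/4)^2)*u*(1+2*x))*((y-(1/4))^2*v*v))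 + (494237790212040267387835240734852822449627400456/269760965114412594607181301518889602706716223875)*((u*(1-x)*(1-3*u+2*u*x))*((v-2*(3/4)*y+(3/4)^2)*(1/2-v))) + (807213090205622498195405759660273860183626898784/809282895343237783821543904556668808120148671625)*(((u-2*(1/4)*x+(1/4)^2)*(1+2*x))*((v-2*(1/4)*y+(1/4)^2)*(1/2-v))) + (1694328998044632701660821157467101160044901891146176/65551914522802260489545056269090173457732042401625)*(((x-(1/4))^2*u*(1/2-u))*(v*(v-y^2)*(1/2-v))) + (127033113637003518533763629112307662249687523701256/65551914522802260489545056269090173457732042401625)*((u*(u-x^2))*(v*v*(1-y)*(1+2*y))) + (15076735835074394666443499569273461375852476529844/2427848686029713351464631713670006424360446014875)*(((u-2*(1/2)*x+(1/2)^2)*(1/2-u))*(v*(1+y-2*v)*(1/2-v))) + (638125356464502595208552209408/98578591621825871596672425125)*(((1/2-u)*(1/2-u)*(1/2-u))*((1/2-v)*(1/2-v)*(1/2-v))) + (3741465473832618898522327257471682792483209001972/2622076580912090419581802250763606938309281696065)*((u*u*(u-x^2))*(v*v*(1+y-2*v)))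 + (40403395814962035779368980453700416919972062157672/2427848686029713351464631713670006424360446014875)*(((1/2-u)*(1/2-u)*(1/2-u))*((v-y^2)*(1/2-v)*(1/2-v))) + (31545524640810398699565988224856096824565109487442/7283546058089140054393895141010019273081338044625)*((u*(1-x)*(1-3*u+2*u*x))*((1-v)*(v-y^2)*(1/2-v))) + (410583723136541825322351316301438119841044505602096/65551914522802260489545056269090173457732042401625)*((u*u*(u-x^2))*(v*(v-y^2))) + (838900199821359871481127875672/887207324596432844370051826125)*(((x-(1/2))^2*u)*((1-y)*(1-y)*(1/2-v)*(1/2-v))) + (28677215407763391255200103680341598061282058394176/7283546058089140054393895141010019273081338044625)*(((1-x)*(1-x)*(1/2-u)*(1/2-u))*((y-(1/4))^2*v*v)) + (4479705771220784487476179311814365042050685792784/485569737205942670292926342734001284872089202975)*((u*(1-x)*(1-3*u+2*u*x))*((1-y)*(1-y)*(1/2-v)*(1/2-v))) + (2921707304519429029365547419800393773870574517064/636426354590313208636359769602817218036233421375)*((u*u*(1+x-2*u))*(v*(v-y^2)*(1/2-v)))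 + (35713211913341105904878161722672161914114101232/13123506410971423521430441695513548239786194675)*((u*(1+x-2*u)*(1/2-u))*((v-2*(1/2)*y+(1/2)^2)*(1/2-v))) + (13314047832211535205967208392091220858275982662624/7283546058089140054393895141010019273081338044625)*((u*(u-x^2)*(1/2-u))*((v-2*(1/2)*y+(1/2)^2)*(1+2*y))) + (14925421818863935005663229077247110691755644411156/7283546058089140054393895141010019273081338044625)*(((1-u)*(1-x)*(1-3*u+2*u*x))*((1-y)*(1-y)*(1/2-v)*(1/2-v))) + (12345397392038811947522812712200049564227030729856/7283546058089140054393895141010019273081338044625)*(((1/2-u)*(1/2-u)*(1/2-u))*(v*(1-y)*(1-3*v+2*v*y))) + (235292412497550499663326086225595431037918446776/7283546058089140054393895141010019273081338044625)*(((u-x^2)*(1/2-u)*(1/2-u))*((1-y)*(1-y)*(1/2-v)*(1/2-v))) + (1382544964442473618206367981727221461434637516888/269760965114412594607181301518889602706716223875)*(((u-2*(1/4)*x+(1/4)^2)*(1/2-u))*(v*v*(1+y-2*v))) + (26875541601149991739449774275737543825960482352/2158087720915300756857450412151116821653729791)*(((1-x)*(1-x)*(1/2-u)*(1/2-u))*((y-(1/2))^2*v*v))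 + (29226776927324470873870484732180126087145377019584/7283546058089140054393895141010019273081338044625)*(((x-(1/4))^2*u*u)*((1-y)*(1-y)*(1/2-v)*(1/2-v))) + (127827179375903807291248617577187396020311375666616/7283546058089140054393895141010019273081338044625)*(((u-2*(1/2)*x+(1/2)^2)*(1/2-u))*((y-(0))^2*v*(1/2-v))) + (527474069559858342872874701495804038933900916321/7283546058089140054393895141010019273081338044625)*(((1+2*x)*(1+2*x)*(1/2-u)*(1/2-u))*((v-2*(1/2)*y+(1/2)^2)*(1+2*y))) + (43212956559327056784953091606835353938213370257038/7283546058089140054393895141010019273081338044625)*(((x-(1/2))^2*u*(1-u))*((v-2*(1/2)*y+(1/2)^2)*v*(1+2*y))) + (19113384040359190932755132907402899089275260043022/65551914522802260489545056269090173457732042401625)*((u*(1-x)*(1-3*u+2*u*x))*(v*(v-y^2)*(1/2-v))) + (21634075066770721306355415117513847462543113169213/21850638174267420163181685423030057819244014133875)*(((u-2*(1/4)*x+(1/4)^2)*u*(1+2*x))*(v*(1+2*y)*(1-3*v+2*v*y))) + (12098941640880340626619512974023447842104827371718/7283546058089140054393895141010019273081338044625)*(((u-2*(1/2)*x+(1/2)^2)*(1/2-u))*((1+2*y)*(1+2*y)*(1/2-v)*(1/2-v)))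 + (5517580892830514265007891275834817474660297325036/7283546058089140054393895141010019273081338044625)*(((x-(1/2))^2*u*u)*((v-2*(1/4)*y+(1/4)^2)*v*(1+2*y))) + (94348454174439104033192021373797610997846836760784/7283546058089140054393895141010019273081338044625)*(((x-(-1/4))^2*u*(1/2-u))*((v-2*(1/2)*y+(1/2)^2)*(1/2-v))) + (34269011789011778532073537826954096648949560814272/7283546058089140054393895141010019273081338044625)*(((x-(1/4))^2*u*(1/2-u))*((y-(0))^2*v*v)) + (1397275876626602348033378823962000141437839031832/809282895343237783821543904556668808120148671625)*(((u-2*(3/4)*x+(3/4)^2)*(1/2-u))*(v*(1-y)*(1-3*v+2*v*y))) + (24939992372719556454492592973712003005644504538368/7283546058089140054393895141010019273081338044625)*(((u-2*(1/2)*x+(1/2)^2)*u*(1+2*x))*((y-(1/2))^2*v*(1/2-v))) + (12345068757060295482802873220946227106108027459232/7283546058089140054393895141010019273081338044625)*(((u-2*(1/2)*x+(1/2)^2)*(1+2*x))*(v*(v-y^2)*(1/2-v))) + (14482135016356212700691722495432674118850782358744/7283546058089140054393895141010019273081338044625)*(((1/2-u)*(1/2-u)*(1/2-u))*((1-y)*(1-y)*(1/2-v)*(1/2-v)))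 + (5779558666315650832962398147611243426655210964304/1456709211617828010878779028202003854616267608925)*(((u-2*(1/2)*x+(1/2)^2)*(1/2-u))*(v*v*(v-y^2))) + (5668775210009627093883808488951544218943469699764/7283546058089140054393895141010019273081338044625)*(((1-x)*(1-3*u+2*u*x))*(v*(v-y^2)*(1/2-v))) + (12200863701832512662923432660790926387681107876856/7283546058089140054393895141010019273081338044625)*((u*(1-x)*(1-3*u+2*u*x))*((1/2-v)*(1/2-v)*(1/2-v))) + (8729642893947722257430758149286019889992677111544/7283546058089140054393895141010019273081338044625)*(((u-2*(1/2)*x+(1/2)^2)*(1+2*x))*((y-(1/4))^2*v*v)) + (988582183081311739589235826706287706208586507312/291341842323565602175755805640400770923253521785)*(((u-2*(1/2)*x+(1/2)^2)*(1/2-u))*((y-(-1/4))^2*v*(1/2-v))) + (51757300874327458628367841979528610584171023297696/7283546058089140054393895141010019273081338044625)*(((x-(1/2))^2*u*(1/2-u))*((v-2*(3/4)*y+(3/4)^2)*(1/2-v))) + (70865451082393977852087493922274516328762523527393/65551914522802260489545056269090173457732042401625)*((u*(u-x^2)*(1/2-u))*((1-y)*(1-3*v+2*v*y)))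 + (370595437889255564887001805364800861372605950712/485569737205942670292926342734001284872089202975)*(((1-3*u+2*u*x)*(1-3*u+2*u*x))*((v-2*(1/2)*y+(1/2)^2)*(1/2-v))) + (963325412424557957805703377416417353686899339984/809282895343237783821543904556668808120148671625)*(((u-2*(1/4)*x+(1/4)^2)*(1+2*x))*(v*v*(v-y^2))) + (11353656877134336691022237609484987541682877210332/2427848686029713351464631713670006424360446014875)*(((1-x)*(1-x)*(1/2-u)*(1/2-u))*((1-y)*(1+2*y)*(1/2-v)*(1/2-v))) + (2651824929165816341119767275635837082880861027812/7283546058089140054393895141010019273081338044625)*(((x-(0))^2*u*u)*(v*(1-y)*(1-3*v+2*v*y))) + (33618455233216079166074716194812063423986979340368/21850638174267420163181685423030057819244014133875)*(((u-2*(1/4)*x+(1/4)^2)*u*(1+2*x))*((v-2*(-1/2)*y+(-1/2)^2)*v*(1/2-v))) + (1304062672108984052865197867056353090088943059328/1456709211617828010878779028202003854616267608925)*(((1-x)*(1-x)*(1/2-u)*(1/2-u))*((1/2-v)*(1/2-v)*(1/2-v))) + (1269978118628957383525908294848/295735774865477614790017275375)*((u*(1-x)*(1-3*u+2*u*x))*(v*(1-y)*(1-3*v+2*v*y)))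 + (50255398207173110652972513775564061043122325632/196852596164571352821456625432703223596792920125)*((u*(1-x)*(1-3*u+2*u*x))*((y-(1/4))^2*v*v)) + (27648668871864332717196258062250401556760735601344/7283546058089140054393895141010019273081338044625)*(((x-(0))^2*u*u)*((y-(1/4))^2*v*(1/2-v))) + (6952024357454594975551017771786484343759288273152/485569737205942670292926342734001284872089202975)*(((u-x^2)*(1/2-u)*(1/2-u))*((1/2-v)*(1/2-v)*(1/2-v))) + (9136202069834620497073186947889214594377907489008/809282895343237783821543904556668808120148671625)*(((x-(0))^2*u*u)*((y-(1/2))^2*v*(1/2-v))) + (881919369333722690071315194089031126068692001632/809282895343237783821543904556668808120148671625)*(((u-2*(1/4)*x+(1/4)^2)*(1/2-u))*((v-2*(1/4)*y+(1/4)^2)*(1+2*y))) + (4798309632504151532052678640954410003951436367956/7283546058089140054393895141010019273081338044625)*(((u-2*(1/4)*x+(1/4)^2)*u*(1+2*x))*((y-(1/2))^2*v*v)) + (565971445372720467851735865218184057113333275549/7283546058089140054393895141010019273081338044625)*(((u-2*(1/2)*x+(1/2)^2)*(1+2*x))*((1+2*y)*(1+2*y)*(1/2-v)*(1/2-v)))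 + (241671104370941383702888787581738300881464473588304/65551914522802260489545056269090173457732042401625)*((u*(u-x^2)*(1/2-u))*((v-2*(1/4)*y+(1/4)^2)*v*(1+2*y))) + (7851915461089060008268683118514292413572032092324/7283546058089140054393895141010019273081338044625)*(((1-x)*(1-x)*(1/2-u)*(1/2-u))*((1+y-2*v)*(1/2-v)*(1/2-v))) + (9227920761832053427106045838556605651396543621904/7283546058089140054393895141010019273081338044625)*(((1-x)*(1-x)*(1/2-u)*(1/2-u))*((1-y)*(1-3*v+2*v*y))) + (62202750485180745721865825678307549343827643141468/7283546058089140054393895141010019273081338044625)*((u*u*(1-x)*(1+2*x))*(v*v*(v-y^2))) + (7335807947809065442854771072998350895710283520062/7283546058089140054393895141010019273081338044625)*(((x-(1/2))^2*u*u)*((v-2*(1/2)*y+(1/2)^2)*v*(1+2*y))) + (6347394014189362312200154395654402644405451459632/4370127634853484032636337084606011563848802826775)*(((u-2*(-1/2)*x+(-1/2)^2)*u*(1/2-u))*((v-2*(1/4)*y+(1/4)^2)*v*(1+2*y))) + (928177034886061262370995549655182580989255010488/2427848686029713351464631713670006424360446014875)*(((u-2*(3/4)*x+(3/4)^2)*u*(1/2-u))*((v-2*(1/2)*y+(1/2)^2)*(1+2*y)))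 + (65015365650894630067139093688646047979955845195796/7283546058089140054393895141010019273081338044625)*(((1-x)*(1-x)*(1/2-u)*(1/2-u))*(v*(1-y)*(1-3*v+2*v*y))) + (8594737994182527941287523072283944414773297526008/7283546058089140054393895141010019273081338044625)*(((x-(1/4))^2*u*u)*((v-2*(1/2)*y+(1/2)^2)*(1+2*y))) + (16942645994889563489256952229949920840126934117728/7283546058089140054393895141010019273081338044625)*(((u-2*(3/4)*x+(3/4)^2)*(1/2-u))*((y-(1/2))^2*v*(1/2-v))) + (1651257827636483950107631304379317639392408432986688/65551914522802260489545056269090173457732042401625)*((u*(u-x^2)*(1/2-u))*((y-(1/4))^2*v*(1/2-v))) :=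
    (add_nonneg (add_nonneg (add_nonneg (add_nonneg (add_nonneg (add_nonneg (add_nonneg (add_nonneg (add_nonneg (add_nonneg (add_nonneg (add_nonneg (add_nonneg (add_nonneg (add_nonneg (add_nonneg (add_nonneg (add_nonneg (add_nonneg (add_nonneg (add_nonneg (add_nonneg (add_nonneg (add_nonneg (add_nonneg (add_nonneg (add_nonneg (add_nonneg (add_nonneg (add_nonneg (add_nonneg (add_nonneg (add_nonneg (add_nonneg (add_nonneg (add_nonneg (add_nonneg (add_nonneg (add_nonneg (add_nonneg (add_nonneg (add_nonneg (add_nonneg (add_nonneg (add_nonneg (add_nonneg (add_nonneg (add_nonneg (add_nonneg (add_nonneg (add_nonneg (add_nonneg (add_nonneg (add_nonneg (add_nonneg (add_nonneg (add_nonneg (add_nonneg (add_nonneg (add_nonneg (add_nonneg (add_nonneg (add_nonneg (add_nonneg (add_nonneg (add_nonneg (add_nonneg (add_nonneg (add_nonneg (add_nonneg (add_nonneg (add_nonneg (add_nonneg (add_nonneg (add_nonneg (add_nonneg (add_nonneg (add_nonneg (add_nonneg (add_nonneg (add_nonneg (add_nonneg (add_nonneg (add_nonneg (add_nonneg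 (add_nonneg (add_nonneg (add_nonneg (add_nonneg (add_nonneg (add_nonneg (add_nonneg (add_nonneg (add_nonneg (add_nonneg (add_nonneg (add_nonneg (add_nonneg (add_nonneg (mul_nonneg (by norm_num) (mul_nonneg (mul_nonneg (tan_nn hom (1/2)) hla) (mul_nonneg (mul_nonneg (sq_nonneg (y-(3/4))) hu2) hu2))) (mul_nonneg (by norm_num) (mul_nonneg (mul_nonneg (mul_nonneg (sq_nonneg (x-(1/2))) hu) hla) (mul_nonneg (mul_nonneg (sq_nonneg (y-(0))) hu2) hu2)))) (by norm_num : (0:ℝ) ≤ (86644152279998702478259402729/1577257465949213945546758802000))) (mul_nonneg (by norm_num) (mul_nonneg (mul_nonneg (mul_nonneg hu hu) hom) (mul_nonneg (tan_nn hom2 (1/4)) hmu2)))) (mul_nonneg (by norm_num) (mul_nonneg (mul_nonneg (mul_nonneg hu hu) hom) (mul_nonneg (tan_nn hom2 (1/2)) hla2)))) (mul_nonneg (by norm_num) (mul_nonneg (mul_nonneg (mul_nonneg hu hla) hla) (mul_nonneg (tan_nn hom2 (1/2)) hmu2)))) (mul_nonneg (by norm_num) (mul_nonneg (mul_nonneg (mul_nonneg hu hom) hla) (mul_nonneg (mul_nonneg hka2 hbh2) hla2)))) (mul_nonneg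 (by norm_num) (mul_nonneg (mul_nonneg (mul_nonneg (mul_nonneg hka hka) hla) hla) (mul_nonneg (mul_nonneg (mul_nonneg hka2 hka2) hla2) hla2)))) (mul_nonneg (by norm_num) (mul_nonneg (mul_nonneg (mul_nonneg (mul_nonneg hka hmu) hla) hla) (mul_nonneg (mul_nonneg (mul_nonneg hka2 hka2) hla2) hla2)))) (mul_nonneg (by norm_num) (mul_nonneg (mul_nonneg (tan_nn hom (1/4)) hla) (mul_nonneg (mul_nonneg (mul_nonneg hu2 hu2) hka2) hmu2)))) (mul_nonneg (by norm_num) (mul_nonneg (mul_nonneg (mul_nonneg hu hmu) hbh) (mul_nonneg (mul_nonneg (tan_nn hom2 (1/4)) hu2) hmu2)))) (mul_nonneg (by norm_num) (mul_nonneg (mul_nonneg (mul_nonneg het hom) hla) (mul_nonneg (mul_nonneg hu2 hka2) hbh2)))) (mul_nonneg (by norm_num) (mul_nonneg (mul_nonneg (mul_nonneg (mul_nonneg hmu hmu) hla) hla) (mul_nonneg (tan_nn hom2 (1/2)) hla2)))) (mul_nonneg (by norm_num) (mul_nonneg (mul_nonneg (mul_nonneg (sq_nonneg (x-(1/2))) hu) hla) (mul_nonneg (mul_nonneg (sq_nonneg (y-(1/2))) hu2) hla2)))) (mul_nonneg (by norm_num) (mul_nonneg (mul_nonneg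 (tan_nn hom (1/2)) hmu) (mul_nonneg (mul_nonneg (tan_nn hom2 (3/4)) hu2) hla2)))) (mul_nonneg (by norm_num) (mul_nonneg (mul_nonneg (mul_nonneg hu hka) hbh) (mul_nonneg (mul_nonneg (sq_nonneg (y-(0))) hu2) hu2)))) (mul_nonneg (by norm_num) (mul_nonneg (mul_nonneg (mul_nonneg (sq_nonneg (x-(1/4))) hu) hu) (mul_nonneg (mul_nonneg hu2 hka2) hbh2)))) (mul_nonneg (by norm_num) (mul_nonneg (mul_nonneg (mul_nonneg (tan_nn hom (1/2)) hu) hmu) (mul_nonneg (sq_nonneg (y-(1/2))) hu2)))) (mul_nonneg (by norm_num) (mul_nonneg (mul_nonneg (mul_nonneg hu hu) hom) (mul_nonneg (mul_nonneg (mul_nonneg hu2 hu2) hka2) hmu2)))) (mul_nonneg (by norm_num) (mul_nonneg (mul_nonneg (mul_nonneg (sq_nonneg (x-(1/4))) hu) hu) (mul_nonneg (mul_nonneg (tan_nn hom2 (1/4)) hu2) hmu2)))) (mul_nonneg (by norm_num) (mul_nonneg (mul_nonneg (tan_nn hom (1/2)) hla) (mul_nonneg hbh2 hbh2)))) (mul_nonneg (by norm_num) (mul_nonneg (mul_nonneg (mul_nonneg hu hu) hch) (mul_nonneg (tan_nn hom2 (1/4)) hla2)))) (mul_nonneg (by norm_num) (mul_nonneg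 (mul_nonneg (tan_nn hom (3/4)) hla) (mul_nonneg (mul_nonneg hla2 hla2) hla2)))) (mul_nonneg (by norm_num) (mul_nonneg (mul_nonneg (mul_nonneg (tan_nn hom (1/4)) hu) hmu) (mul_nonneg (mul_nonneg hu2 hom2) hla2)))) (mul_nonneg (by norm_num) (mul_nonneg (mul_nonneg (mul_nonneg (sq_nonneg (x-(0))) hu) hla) (mul_nonneg (tan_nn hom2 (1/2)) hla2)))) (mul_nonneg (by norm_num) (mul_nonneg (mul_nonneg (mul_nonneg (tan_nn hom (1/2)) hu) hmu) (mul_nonneg (mul_nonneg (mul_nonneg hmu2 hmu2) hla2) hla2)))) (mul_nonneg (by norm_num) (mul_nonneg (mul_nonneg (mul_nonneg (sq_nonneg (x-(1/2))) hu) hu) (mul_nonneg (mul_nonneg (mul_nonneg hka2 hka2) hla2) hla2)))) (mul_nonneg (by norm_num) (mul_nonneg (mul_nonneg (mul_nonneg (mul_nonneg hmu hmu) hla) hla) (mul_nonneg (mul_nonneg (tan_nn hom2 (1/2)) hu2) hmu2)))) (mul_nonneg (by norm_num) (mul_nonneg (mul_nonneg (mul_nonneg (sq_nonneg (x-(3/4))) hu) hu) (mul_nonneg (tan_nn hom2 (1/2)) hla2)))) (mul_nonneg (by norm_num) (mul_nonneg (mul_nonneg (mul_nonneg hom hla) hla) (mul_nonneg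 (mul_nonneg hom2 hla2) hla2)))) (mul_nonneg (by norm_num) (mul_nonneg (mul_nonneg (tan_nn hom (1/2)) hmu) (mul_nonneg (mul_nonneg hu2 hla2) hla2)))) (mul_nonneg (by norm_num) (mul_nonneg (mul_nonneg (mul_nonneg hu het) hom) (mul_nonneg (mul_nonneg hu2 hu2) hom2)))) (mul_nonneg (by norm_num) (mul_nonneg (mul_nonneg (mul_nonneg (tan_nn hom (1/4)) hu) hmu) (mul_nonneg (mul_nonneg (sq_nonneg (y-(1/4))) hu2) hu2)))) (mul_nonneg (by norm_num) (mul_nonneg (mul_nonneg (mul_nonneg hu hka) hbh) (mul_nonneg (tan_nn hom2 (3/4)) hla2)))) (mul_nonneg (by norm_num) (mul_nonneg (mul_nonneg (tan_nn hom (1/4)) hmu) (mul_nonneg (tan_nn hom2 (1/4)) hla2)))) (mul_nonneg (by norm_num) (mul_nonneg (mul_nonneg (mul_nonneg (sq_nonneg (x-(1/4))) hu) hla) (mul_nonneg (mul_nonneg hu2 hom2) hla2)))) (mul_nonneg (by norm_num) (mul_nonneg (mul_nonneg hu hom) (mul_nonneg (mul_nonneg (mul_nonneg hu2 hu2) hka2) hmu2)))) (mul_nonneg (by norm_num) (mul_nonneg (mul_nonneg (tan_nn hom (1/2)) hla) (mul_nonneg (mul_nonneg hu2 hch2) hla2))))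 (mul_nonneg (by norm_num) (mul_nonneg (mul_nonneg (mul_nonneg hla hla) hla) (mul_nonneg (mul_nonneg hla2 hla2) hla2)))) (mul_nonneg (by norm_num) (mul_nonneg (mul_nonneg (mul_nonneg hu hu) hom) (mul_nonneg (mul_nonneg hu2 hu2) hch2)))) (mul_nonneg (by norm_num) (mul_nonneg (mul_nonneg (mul_nonneg hla hla) hla) (mul_nonneg (mul_nonneg hom2 hla2) hla2)))) (mul_nonneg (by norm_num) (mul_nonneg (mul_nonneg (mul_nonneg hu hka) hbh) (mul_nonneg (mul_nonneg het2 hom2) hla2)))) (mul_nonneg (by norm_num) (mul_nonneg (mul_nonneg (mul_nonneg hu hu) hom) (mul_nonneg hu2 hom2)))) (mul_nonneg (by norm_num) (mul_nonneg (mul_nonneg (sq_nonneg (x-(1/2))) hu) (mul_nonneg (mul_nonneg (mul_nonneg hka2 hka2) hla2) hla2)))) (mul_nonneg (by norm_num) (mul_nonneg (mul_nonneg (mul_nonneg (mul_nonneg hka hka) hla) hla) (mul_nonneg (mul_nonneg (sq_nonneg (y-(1/4))) hu2) hu2)))) (mul_nonneg (by norm_num) (mul_nonneg (mul_nonneg (mul_nonneg hu hka) hbh) (mul_nonneg (mul_nonneg (mul_nonneg hka2 hka2) hla2) hla2)))) (mul_nonneg (by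 norm_num) (mul_nonneg (mul_nonneg (mul_nonneg hu hu) hch) (mul_nonneg (mul_nonneg hu2 hom2) hla2)))) (mul_nonneg (by norm_num) (mul_nonneg (mul_nonneg (mul_nonneg hu hch) hla) (mul_nonneg (tan_nn hom2 (1/2)) hla2)))) (mul_nonneg (by norm_num) (mul_nonneg (mul_nonneg (mul_nonneg hu hom) hla) (mul_nonneg (tan_nn hom2 (1/2)) hmu2)))) (mul_nonneg (by norm_num) (mul_nonneg (mul_nonneg (mul_nonneg het hka) hbh) (mul_nonneg (mul_nonneg (mul_nonneg hka2 hka2) hla2) hla2)))) (mul_nonneg (by norm_num) (mul_nonneg (mul_nonneg (mul_nonneg hla hla) hla) (mul_nonneg (mul_nonneg hu2 hka2) hbh2)))) (mul_nonneg (by norm_num) (mul_nonneg (mul_nonneg (mul_nonneg hom hla) hla) (mul_nonneg (mul_nonneg (mul_nonneg hka2 hka2) hla2) hla2)))) (mul_nonneg (by norm_num) (mul_nonneg (mul_nonneg (tan_nn hom (1/4)) hla) (mul_nonneg (mul_nonneg hu2 hu2) hch2)))) (mul_nonneg (by norm_num) (mul_nonneg (mul_nonneg (mul_nonneg (mul_nonneg hka hka) hla) hla) (mul_nonneg (mul_nonneg (sq_nonneg (y-(1/2))) hu2) hu2)))) (mul_nonneg (by norm_num)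 (mul_nonneg (mul_nonneg (mul_nonneg (sq_nonneg (x-(1/4))) hu) hu) (mul_nonneg (mul_nonneg (mul_nonneg hka2 hka2) hla2) hla2)))) (mul_nonneg (by norm_num) (mul_nonneg (mul_nonneg (tan_nn hom (1/2)) hla) (mul_nonneg (mul_nonneg (sq_nonneg (y-(0))) hu2) hla2)))) (mul_nonneg (by norm_num) (mul_nonneg (mul_nonneg (mul_nonneg (mul_nonneg hmu hmu) hla) hla) (mul_nonneg (tan_nn hom2 (1/2)) hmu2)))) (mul_nonneg (by norm_num) (mul_nonneg (mul_nonneg (mul_nonneg (sq_nonneg (x-(1/2))) hu) het) (mul_nonneg (mul_nonneg (tan_nn hom2 (1/2)) hu2) hmu2)))) (mul_nonneg (by norm_num) (mul_nonneg (mul_nonneg (mul_nonneg hu hka) hbh) (mul_nonneg (mul_nonneg hu2 hom2) hla2)))) (mul_nonneg (by norm_num) (mul_nonneg (mul_nonneg (mul_nonneg (tan_nn hom (1/4)) hu) hmu) (mul_nonneg (mul_nonneg hu2 hmu2) hbh2)))) (mul_nonneg (by norm_num) (mul_nonneg (mul_nonneg (tan_nn hom (1/2)) hla) (mul_nonneg (mul_nonneg (mul_nonneg hmu2 hmu2) hla2) hla2)))) (mul_nonneg (by norm_num) (mul_nonneg (mul_nonneg (mul_nonneg (sq_nonneg (x-(1/2)))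 hu) hu) (mul_nonneg (mul_nonneg (tan_nn hom2 (1/4)) hu2) hmu2)))) (mul_nonneg (by norm_num) (mul_nonneg (mul_nonneg (mul_nonneg (sq_nonneg (x-(-1/4))) hu) hla) (mul_nonneg (tan_nn hom2 (1/2)) hla2)))) (mul_nonneg (by norm_num) (mul_nonneg (mul_nonneg (mul_nonneg (sq_nonneg (x-(1/4))) hu) hla) (mul_nonneg (mul_nonneg (sq_nonneg (y-(0))) hu2) hu2)))) (mul_nonneg (by norm_num) (mul_nonneg (mul_nonneg (tan_nn hom (3/4)) hla) (mul_nonneg (mul_nonneg hu2 hka2) hbh2)))) (mul_nonneg (by norm_num) (mul_nonneg (mul_nonneg (mul_nonneg (tan_nn hom (1/2)) hu) hmu) (mul_nonneg (mul_nonneg (sq_nonneg (y-(1/2))) hu2) hla2)))) (mul_nonneg (by norm_num) (mul_nonneg (mul_nonneg (tan_nn hom (1/2)) hmu) (mul_nonneg (mul_nonneg hu2 hom2) hla2)))) (mul_nonneg (by norm_num) (mul_nonneg (mul_nonneg (mul_nonneg hla hla) hla) (mul_nonneg (mul_nonneg (mul_nonneg hka2 hka2) hla2) hla2)))) (mul_nonneg (by norm_num) (mul_nonneg (mul_nonneg (tan_nn hom (1/2)) hla) (mul_nonneg (mul_nonneg hu2 hu2) hom2)))) (mul_nonneg (by norm_num)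 (mul_nonneg (mul_nonneg hka hbh) (mul_nonneg (mul_nonneg hu2 hom2) hla2)))) (mul_nonneg (by norm_num) (mul_nonneg (mul_nonneg (mul_nonneg hu hka) hbh) (mul_nonneg (mul_nonneg hla2 hla2) hla2)))) (mul_nonneg (by norm_num) (mul_nonneg (mul_nonneg (tan_nn hom (1/2)) hmu) (mul_nonneg (mul_nonneg (sq_nonneg (y-(1/4))) hu2) hu2)))) (mul_nonneg (by norm_num) (mul_nonneg (mul_nonneg (tan_nn hom (1/2)) hla) (mul_nonneg (mul_nonneg (sq_nonneg (y-(-1/4))) hu2) hla2)))) (mul_nonneg (by norm_num) (mul_nonneg (mul_nonneg (mul_nonneg (sq_nonneg (x-(1/2))) hu) hla) (mul_nonneg (tan_nn hom2 (3/4)) hla2)))) (mul_nonneg (by norm_num) (mul_nonneg (mul_nonneg (mul_nonneg hu hom) hla) (mul_nonneg hka2 hbh2)))) (mul_nonneg (by norm_num) (mul_nonneg (mul_nonneg hbh hbh) (mul_nonneg (tan_nn hom2 (1/2)) hla2)))) (mul_nonneg (by norm_num) (mul_nonneg (mul_nonneg (tan_nn hom (1/4)) hmu) (mul_nonneg (mul_nonneg hu2 hu2) hom2)))) (mul_nonneg (by norm_num) (mul_nonneg (mul_nonneg (mul_nonneg (mul_nonneg hka hka) hla) hla) (mul_nonneg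 (mul_nonneg (mul_nonneg hka2 hmu2) hla2) hla2)))) (mul_nonneg (by norm_num) (mul_nonneg (mul_nonneg (mul_nonneg (sq_nonneg (x-(0))) hu) hu) (mul_nonneg (mul_nonneg hu2 hka2) hbh2)))) (mul_nonneg (by norm_num) (mul_nonneg (mul_nonneg (mul_nonneg (tan_nn hom (1/4)) hu) hmu) (mul_nonneg (mul_nonneg (tan_nn hom2 (-1/2)) hu2) hla2)))) (mul_nonneg (by norm_num) (mul_nonneg (mul_nonneg (mul_nonneg (mul_nonneg hka hka) hla) hla) (mul_nonneg (mul_nonneg hla2 hla2) hla2)))) (mul_nonneg (by norm_num) (mul_nonneg (mul_nonneg (mul_nonneg hu hka) hbh) (mul_nonneg (mul_nonneg hu2 hka2) hbh2)))) (mul_nonneg (by norm_num) (mul_nonneg (mul_nonneg (mul_nonneg hu hka) hbh) (mul_nonneg (mul_nonneg (sq_nonneg (y-(1/4))) hu2) hu2)))) (mul_nonneg (by norm_num) (mul_nonneg (mul_nonneg (mul_nonneg (sq_nonneg (x-(0))) hu) hu) (mul_nonneg (mul_nonneg (sq_nonneg (y-(1/4))) hu2) hla2)))) (mul_nonneg (by norm_num) (mul_nonneg (mul_nonneg (mul_nonneg hom hla) hla) (mul_nonneg (mul_nonneg hla2 hla2) hla2)))) (mul_nonneg (by norm_num)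 (mul_nonneg (mul_nonneg (mul_nonneg (sq_nonneg (x-(0))) hu) hu) (mul_nonneg (mul_nonneg (sq_nonneg (y-(1/2))) hu2) hla2)))) (mul_nonneg (by norm_num) (mul_nonneg (mul_nonneg (tan_nn hom (1/4)) hla) (mul_nonneg (tan_nn hom2 (1/4)) hmu2)))) (mul_nonneg (by norm_num) (mul_nonneg (mul_nonneg (mul_nonneg (tan_nn hom (1/4)) hu) hmu) (mul_nonneg (mul_nonneg (sq_nonneg (y-(1/2))) hu2) hu2)))) (mul_nonneg (by norm_num) (mul_nonneg (mul_nonneg (tan_nn hom (1/2)) hmu) (mul_nonneg (mul_nonneg (mul_nonneg hmu2 hmu2) hla2) hla2)))) (mul_nonneg (by norm_num) (mul_nonneg (mul_nonneg (mul_nonneg hu hom) hla) (mul_nonneg (mul_nonneg (tan_nn hom2 (1/4)) hu2) hmu2)))) (mul_nonneg (by norm_num) (mul_nonneg (mul_nonneg (mul_nonneg (mul_nonneg hka hka) hla) hla) (mul_nonneg (mul_nonneg hch2 hla2) hla2)))) (mul_nonneg (by norm_num) (mul_nonneg (mul_nonneg (mul_nonneg (mul_nonneg hka hka) hla) hla) (mul_nonneg hka2 hbh2)))) (mul_nonneg (by norm_num) (mul_nonneg (mul_nonneg (mul_nonneg (mul_nonneg hu hu) hka) hmu) (mul_nonneg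 (mul_nonneg hu2 hu2) hom2)))) (mul_nonneg (by norm_num) (mul_nonneg (mul_nonneg (mul_nonneg (sq_nonneg (x-(1/2))) hu) hu) (mul_nonneg (mul_nonneg (tan_nn hom2 (1/2)) hu2) hmu2)))) (mul_nonneg (by norm_num) (mul_nonneg (mul_nonneg (mul_nonneg (tan_nn hom (-1/2)) hu) hla) (mul_nonneg (mul_nonneg (tan_nn hom2 (1/4)) hu2) hmu2)))) (mul_nonneg (by norm_num) (mul_nonneg (mul_nonneg (mul_nonneg (tan_nn hom (3/4)) hu) hla) (mul_nonneg (tan_nn hom2 (1/2)) hmu2)))) (mul_nonneg (by norm_num) (mul_nonneg (mul_nonneg (mul_nonneg (mul_nonneg hka hka) hla) hla) (mul_nonneg (mul_nonneg hu2 hka2) hbh2)))) (mul_nonneg (by norm_num) (mul_nonneg (mul_nonneg (mul_nonneg (sq_nonneg (x-(1/4))) hu) hu) (mul_nonneg (tan_nn hom2 (1/2)) hmu2)))) (mul_nonneg (by norm_num) (mul_nonneg (mul_nonneg (tan_nn hom (3/4)) hla) (mul_nonneg (mul_nonneg (sq_nonneg (y-(1/2))) hu2) hla2)))) (mul_nonneg (by norm_num) (mul_nonneg (mul_nonneg (mul_nonneg hu hom) hla) (mul_nonneg (mul_nonneg (sq_nonneg (y-(1/4))) hu2) hla2))))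
  positivity

end Vale.Agent.Lib.P154.GW
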